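import Crest.Agent.R12.LS.Basic

/-! Row 12, block LS: from squarefree rows to all rows. -/

set_option autoImplicit false

namespace Crest.Agent.R12.LS

open Crest.Agent.R17
open scoped ComplexConjugate

/-- a cube-free primary element is `k₁ k₂²` (`Prim.induction_coprime` or `Prim.exists_powFree` with
`k = 2`: `c = k₁ k₂²`, and `k₂` is squarefree because `c` is cube-free) -/
theorem exists_cubefree {c : O} (hc : Prim c) (h : PowFree 3 c) :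
    ∃ k₁ k₂ : O, PSq k₁ ∧ PSq k₂ ∧ c = k₁ * k₂ ^ 2 := by
  obtain ⟨k₁, k₂, h₁, h₂, h₃, rfl⟩ := hc.exists_powFree (k := 2) two_pos
  refine ⟨k₁, k₂, ⟨h₁, (powFree_two h₁.ne_zero).1 h₃⟩,
    ⟨h₂, (powFree_two h₂.ne_zero).1 fun p hp hd => h p hp ?_⟩, rfl⟩
  refine Dvd.dvd.mul_left ((pow_dvd_pow p (by norm_num : 3 ≤ 2 * 2)).trans ?_) k₁
  rw [pow_mul]
  exact pow_dvd_pow_of_dvd hd 2

/-- `exists_decomp`, `Prim.exists_powFree`; `-1` and `λ³` go into `m³` -/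
theorem exists_row_decomp {k : O} (hk : k ≠ 0) :
    ∃ s ∈ S9, ∃ k₁ k₂ m : O, PSq k₁ ∧ PSq k₂ ∧ m ≠ 0 ∧ k = s * k₁ * k₂ ^ 2 * m ^ 3 := by
  classical
  obtain ⟨ζ, i, n, hζ, hn, rfl⟩ := exists_decomp hk
  obtain ⟨j, -, rfl⟩ := isUnit_iff.1 hζ
  obtain ⟨c, b, hc, hb, hcf, rfl⟩ := hn.exists_powFree (k := 3) three_pos
  obtain ⟨k₁, k₂, h₁, h₂, rfl⟩ := exists_cubefree hc hcf
  refine ⟨om ^ (2 * j % 3) * lam ^ (i % 3), ?_, k₁, k₂, (-1) ^ j * lam ^ (i / 3) * b, h₁, h₂,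
    mul_ne_zero (mul_ne_zero (pow_ne_zero _ (by norm_num)) (pow_ne_zero _ lam_ne_zero)) hb.ne_zero,
    ?_⟩
  · exact Finset.mem_image.2 ⟨(2 * j % 3, i % 3), Finset.mem_product.2
      ⟨Finset.mem_range.2 (Nat.mod_lt _ three_pos), Finset.mem_range.2 (Nat.mod_lt _ three_pos)⟩, rfl⟩
  · have e₁ : zt = -1 * om ^ 2 := by rw [om_sq, zt]; ring
    have e₂ : zt ^ j = ((-1) ^ j) ^ 3 * om ^ (2 * j % 3) := by
      rw [e₁, mul_pow, ← pow_mul om, pow_eq_pow_mod (2 * j) om_cube, ← pow_mul, mul_comm j 3,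
        pow_mul]
      norm_num
    have e₃ : lam ^ i = lam ^ (i % 3) * (lam ^ (i / 3)) ^ 3 := by
      rw [← pow_mul, ← pow_add, Nat.mod_add_div']
    rw [e₂, e₃]
    ring

theorem one_le_nm_S9 {s : O} (hs : s ∈ S9) : 1 ≤ nm s := by
  classical
  obtain ⟨p, -, rfl⟩ := Finset.mem_image.1 hs
  exact one_le_nm (mul_ne_zero (pow_ne_zero _ isUnit_om.ne_zero) (pow_ne_zero _ lam_ne_zero))

theorem card_S9 : S9.card ≤ 9 := by
  classical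
  exact Finset.card_image_le.trans (by simp)

/-- `N k₂ ≤ N k₁`: `j = k₂`; otherwise `j = k₁` (`ctb_cover`) -/
theorem cover {U : ℝ} {S : Finset O} (hS : ∀ k ∈ S, k ≠ 0 ∧ nm k ≤ U) {f : O → ℝ}
    (hf : ∀ k, 0 ≤ f k) :
    ∑ k ∈ S, f k ≤ ∑ s ∈ S9, ∑ p ∈ PU U,
      (∑ k ∈ sball (U / (nm p.2 ^ 2 * nm p.1 ^ 3)), f (s * p.2 ^ 2 * p.1 ^ 3 * k) +
        ∑ k ∈ sball (√U), f (s * p.2 * p.1 ^ 3 * k ^ 2)) := by
  classical
  refine (ctb_cover S ((S9 ×ˢ PU U).sigma fun x =>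
      (sball (U / (nm x.2.2 ^ 2 * nm x.2.1 ^ 3))).disjSum (sball (√U)))
    (fun y => Sum.elim (fun k => y.1.1 * y.1.2.2 ^ 2 * y.1.2.1 ^ 3 * k)
      (fun k => y.1.1 * y.1.2.2 * y.1.2.1 ^ 3 * k ^ 2) y.2) f hf fun k hk => ?_).trans_eq ?_
  · obtain ⟨hk0, hkU⟩ := hS k hk
    obtain ⟨s, hs, k₁, k₂, m, h₁, h₂, hm, e⟩ := exists_row_decomp hk0
    have a₀ := one_le_nm_S9 hs
    have a₁ := one_le_nm h₁.1.ne_zero
    have a₂ := one_le_nm h₂.1.ne_zero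
    have a₃ := one_le_nm hm
    have b₁ : nm k₁ ≤ U := (nm_le_of_dvd ⟨s * k₂ ^ 2 * m ^ 3, by rw [e]; ring⟩ hk0).trans hkU
    have b₂ : nm k₂ ≤ U := (nm_le_of_dvd ⟨s * k₁ * k₂ * m ^ 3, by rw [e]; ring⟩ hk0).trans hkU
    have b₃ : nm m ≤ U := (nm_le_of_dvd ⟨s * k₁ * k₂ ^ 2 * m ^ 2, by rw [e]; ring⟩ hk0).trans hkU
    have b₄ : nm k₁ * nm k₂ ^ 2 * nm m ^ 3 ≤ U := by
      rw [← nm_pow, ← nm_pow, ← nm_mul, ← nm_mul]
      exact (nm_le_of_dvd ⟨s, by rw [e]; ring⟩ hk0).trans hkU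
    have hP : ∀ j, j ≠ 0 → nm j ≤ U → nm j ≤ nm k₁ → nm j ≤ nm k₂ → (s, m, j) ∈ S9 ×ˢ PU U := by
      intro j hj c₁ c₂ c₃
      have := nm_nonneg j
      refine Finset.mem_product.2 ⟨hs, Finset.mem_filter.2 ⟨Finset.mem_product.2
        ⟨mem_ball.2 b₃, mem_ball.2 c₁⟩, hm, hj, le_trans ?_ b₄⟩⟩
      calc (nm m * nm j) ^ 3 = nm j * nm j ^ 2 * nm m ^ 3 := by ring
        _ ≤ _ := by gcongr
    rcases le_total (nm k₂) (nm k₁) with h | h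
    · refine ⟨⟨(s, m, k₂), Sum.inl k₁⟩, Finset.mem_sigma.2 ⟨hP k₂ h₂.1.ne_zero b₂ h le_rfl,
        Finset.inl_mem_disjSum.2 (mem_sball.2 ⟨?_, h₁⟩)⟩, by rw [e, Sum.elim_inl]; ring⟩
      rw [le_div_iff₀ (by positivity), ← mul_assoc]
      exact b₄
    · refine ⟨⟨(s, m, k₁), Sum.inr k₂⟩, Finset.mem_sigma.2 ⟨hP k₁ h₁.1.ne_zero b₁ le_rfl h,
        Finset.inr_mem_disjSum.2 (mem_sball.2 ⟨Real.le_sqrt_of_sq_le ?_, h₂⟩)⟩,
        by rw [e, Sum.elim_inr]; ring⟩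
      rw [← nm_pow]
      exact (nm_le_of_dvd ⟨s * k₁ * m ^ 3, by rw [e]; ring⟩ hk0).trans hkU
  · rw [Finset.sum_sigma, Finset.sum_product]
    simp only [Finset.sum_disjSum, Sum.elim_inl, Sum.elim_inr]

theorem lsab_N2 {c c' : O → ℂ} (h : ∀ n, ‖c' n‖ ≤ ‖c n‖) (M : ℝ) : N2 c' M ≤ N2 c M :=
  Finset.sum_le_sum fun n _ => pow_le_pow_left₀ (norm_nonneg _) (h n) 2

theorem lsab_norm (c : O → ℂ) (t n : O) : ‖c n * cb t n‖ ≤ ‖c n‖ := by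
  rw [norm_mul]
  exact mul_le_of_le_one_right (norm_nonneg _) (norm_cb_le t n)

theorem rows_fix1 {K M Δ : ℝ} (h : LB K M Δ) (hΔ : 0 ≤ Δ) (t : O) {c : O → ℂ} (hc : Supp c 0 M) :
    ∑ k ∈ sball K, ‖cs c M (t * k)‖ ^ 2 ≤ Δ * N2 c M := by
  have h1 := h (sball K) (fun n => c n * cb t n)
    (fun k hk => ⟨(mem_sball.1 hk).2, (mem_sball.1 hk).1⟩) (hc.mul _)
  refine le_trans (le_of_eq ?_)
    (h1.trans (mul_le_mul_of_nonneg_left (lsab_N2 (lsab_norm c t) M) hΔ))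
  refine Finset.sum_congr rfl fun k _ => ?_
  simp only [cs, cb_mul_left, mul_assoc]

/-- `cb (k²) n = conj (cb k n)`: conjugate the sum -/
theorem rows_fix2 {K M Δ : ℝ} (h : LB K M Δ) (hΔ : 0 ≤ Δ) (t : O) {c : O → ℂ} (hc : Supp c 0 M) :
    ∑ k ∈ sball K, ‖cs c M (t * k ^ 2)‖ ^ 2 ≤ Δ * N2 c M := by
  have h1 := h (sball K) (fun n => conj (c n * cb t n))
    (fun k hk => ⟨(mem_sball.1 hk).2, (mem_sball.1 hk).1⟩)
    (fun n hn => hc n fun h0 => hn (by simp [h0]))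
  refine le_trans (le_of_eq ?_)
    (h1.trans (mul_le_mul_of_nonneg_left (lsab_N2 (fun n => ?_) M) hΔ))
  · refine Finset.sum_congr rfl fun k _ => ?_
    rw [← Complex.norm_conj (cs c M _)]
    simp only [cs, cb_mul_left, cb_pow_left _ _ two_ne_zero, ← conj_cb, map_sum, map_mul,
      Complex.conj_conj, mul_assoc]
  · rw [Complex.norm_conj]
    exact lsab_norm c t n

theorem lsab_sum {σ τ : ℝ} (hσ : 1 < σ) (hτ : 1 < τ) : ∃ C : ℝ, 0 < C ∧ ∀ U : ℝ,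
    ∑ p ∈ PU U, nm p.1 ^ (-σ) * nm p.2 ^ (-τ) ≤ C := by
  classical
  have n0 : ∀ (s : ℝ) (n : O), 0 ≤ nm n ^ s := fun s n => Real.rpow_nonneg (nm_nonneg n) s
  have t1 : 0 ≤ ∑' n : O, nm n ^ (-σ) := tsum_nonneg (n0 _)
  have t2 : 0 ≤ ∑' n : O, nm n ^ (-τ) := tsum_nonneg (n0 _)
  refine ⟨(∑' n : O, nm n ^ (-σ)) * (∑' n : O, nm n ^ (-τ)) + 1, by positivity, fun U => ?_⟩
  calc ∑ p ∈ PU U, nm p.1 ^ (-σ) * nm p.2 ^ (-τ)
      ≤ ∑ p ∈ ball U ×ˢ ball U, nm p.1 ^ (-σ) * nm p.2 ^ (-τ) :=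
        Finset.sum_le_sum_of_subset_of_nonneg (Finset.filter_subset _ _)
          fun p _ _ => mul_nonneg (n0 _ _) (n0 _ _)
    _ = (∑ n ∈ ball U, nm n ^ (-σ)) * ∑ n ∈ ball U, nm n ^ (-τ) := by
        rw [Finset.sum_mul_sum, Finset.sum_product]
    _ ≤ (∑' n : O, nm n ^ (-σ)) * ∑' n : O, nm n ^ (-τ) :=
        mul_le_mul ((summable_nm_rpow hσ).sum_le_tsum _ fun n _ => n0 _ n)
          ((summable_nm_rpow hτ).sum_le_tsum _ fun n _ => n0 _ n)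
          (Finset.sum_nonneg fun n _ => n0 _ n) t1
    _ ≤ _ := by linarith

/-- `1 ≤ (U^{1/3} / (N m N j))^{1+3ε}`, `summable_nm_rpow` -/
theorem card_PU {ε : ℝ} (hε : 0 < ε) : ∃ C : ℝ, 0 < C ∧ ∀ U : ℝ, 1 ≤ U →
    ((PU U).card : ℝ) ≤ C * U ^ (1 / 3 + ε) := by
  classical
  obtain ⟨C, hC, h⟩ := lsab_sum (σ := 1 + 3 * ε) (τ := 1 + 3 * ε) (by linarith) (by linarith)
  refine ⟨C, hC, fun U hU => ?_⟩
  have hU0 : 0 ≤ U := by linarith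
  calc ((PU U).card : ℝ) = ∑ p ∈ PU U, (1 : ℝ) := by simp
    _ ≤ ∑ p ∈ PU U, nm p.1 ^ (-(1 + 3 * ε)) * nm p.2 ^ (-(1 + 3 * ε)) * U ^ (1 / 3 + ε) := by
        refine Finset.sum_le_sum fun p hp => ?_
        obtain ⟨h1, h2, h3⟩ := (Finset.mem_filter.1 hp).2
        have hx : 0 < nm p.1 * nm p.2 := mul_pos (nm_pos h1) (nm_pos h2)
        rw [← Real.mul_rpow (nm_nonneg _) (nm_nonneg _), Real.rpow_neg hx.le, ← div_eq_inv_mul,
          one_le_div (Real.rpow_pos_of_pos hx _), show 1 + 3 * ε = ((3 : ℕ) : ℝ) * (1 / 3 + ε) by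
            push_cast; ring, Real.rpow_natCast_mul hx.le]
        exact Real.rpow_le_rpow (by positivity) h3 (by linarith)
    _ ≤ _ := by
        rw [← Finset.sum_mul]
        exact mul_le_mul_of_nonneg_right (h U) (Real.rpow_nonneg hU0 _)

theorem sum_PU : ∃ C : ℝ, 0 < C ∧ ∀ U : ℝ,
    ∑ p ∈ PU U, (nm p.2 ^ 2 * nm p.1 ^ 3) ^ (-(2 / 3) : ℝ) ≤ C := by
  obtain ⟨C, hC, h⟩ := lsab_sum (σ := 2) (τ := 4 / 3) (by norm_num) (by norm_num)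
  refine ⟨C, hC, fun U => le_trans (le_of_eq ?_) (h U)⟩
  refine Finset.sum_congr rfl fun p _ => ?_
  rw [Real.mul_rpow (pow_nonneg (nm_nonneg _) _) (pow_nonneg (nm_nonneg _) _),
    ← Real.rpow_natCast_mul (nm_nonneg _), ← Real.rpow_natCast_mul (nm_nonneg _), mul_comm]
  norm_num

/-- the first family of rows: `K = U / w` -/
theorem gxax_first {x ε U M w : ℝ} (hε : 0 ≤ ε) (hU : 1 ≤ U) (hM : 1 ≤ M) (hw : 1 ≤ w) :
    (U / w * M) ^ ε * (U / w + M + (U / w * M) ^ (2 / 3 : ℝ) + (U / w) ^ (4 / 3 : ℝ) * M ^ x) ≤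
      (U * M) ^ ε * (w ^ (-(2 / 3) : ℝ) *
        (U + (U * M) ^ (2 / 3 : ℝ) + U ^ (4 / 3 : ℝ) * M ^ x) + M) := by
  have hw0 : 0 < w := by linarith
  have hU0 : 0 < U := by linarith
  have hM0 : 0 < M := by linarith
  have hK0 : 0 < U / w := div_pos hU0 hw0
  have hKU : U / w ≤ U := div_le_self hU0.le hw
  have h1 : (U / w * M) ^ ε ≤ (U * M) ^ ε :=
    Real.rpow_le_rpow (by positivity) (by gcongr) hε
  have hv0 : 0 < w ^ (-(2 / 3) : ℝ) := Real.rpow_pos_of_pos hw0 _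
  have h2 : U / w ≤ w ^ (-(2 / 3) : ℝ) * U := by
    have : w⁻¹ ≤ w ^ (-(2 / 3) : ℝ) := by
      rw [← Real.rpow_neg_one]
      exact Real.rpow_le_rpow_of_exponent_le hw (by norm_num)
    calc U / w = w⁻¹ * U := by rw [div_eq_inv_mul]
      _ ≤ _ := by gcongr
  have h3 : (U / w * M) ^ (2 / 3 : ℝ) = w ^ (-(2 / 3) : ℝ) * (U * M) ^ (2 / 3 : ℝ) := by
    have : U / w * M = (U * M) / w := by ring
    rw [this, Real.div_rpow (by positivity) hw0.le, Real.rpow_neg hw0.le, div_eq_inv_mul]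
  have h4 : (U / w) ^ (4 / 3 : ℝ) ≤ w ^ (-(2 / 3) : ℝ) * U ^ (4 / 3 : ℝ) := by
    rw [Real.div_rpow hU0.le hw0.le, div_eq_inv_mul, ← Real.rpow_neg hw0.le]
    have : w ^ (-(4 / 3) : ℝ) ≤ w ^ (-(2 / 3) : ℝ) :=
      Real.rpow_le_rpow_of_exponent_le hw (by norm_num)
    have h0 : 0 ≤ U ^ (4 / 3 : ℝ) := by positivity
    gcongr
  have hx0 : 0 ≤ M ^ x := by positivity
  have h5 : (U / w) ^ (4 / 3 : ℝ) * M ^ x ≤ w ^ (-(2 / 3) : ℝ) * U ^ (4 / 3 : ℝ) * M ^ x := by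
    gcongr
  have h6 : U / w + M + (U / w * M) ^ (2 / 3 : ℝ) + (U / w) ^ (4 / 3 : ℝ) * M ^ x ≤
      w ^ (-(2 / 3) : ℝ) * (U + (U * M) ^ (2 / 3 : ℝ) + U ^ (4 / 3 : ℝ) * M ^ x) + M := by
    rw [h3]; nlinarith
  exact mul_le_mul h1 h6 (by positivity) (by positivity)

/-- the second family of rows: `K = √U` -/
theorem gxax_second {x ε U M : ℝ} (hε : 0 ≤ ε) (hU : 1 ≤ U) (hM : 1 ≤ M) :
    U ^ (1 / 3 : ℝ) * ((√U * M) ^ ε *
      (√U + M + (√U * M) ^ (2 / 3 : ℝ) + (√U) ^ (4 / 3 : ℝ) * M ^ x)) ≤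
      (U * M) ^ ε *
        (U ^ (1 / 3 : ℝ) * M + U + (U * M) ^ (2 / 3 : ℝ) + U ^ (4 / 3 : ℝ) * M ^ x) := by
  have hU0 : 0 < U := by linarith
  have hM0 : 0 < M := by linarith
  have hs : √U = U ^ (1 / 2 : ℝ) := Real.sqrt_eq_rpow U
  have hsU : √U ≤ U := by
    rw [hs]
    calc U ^ (1 / 2 : ℝ) ≤ U ^ (1 : ℝ) := Real.rpow_le_rpow_of_exponent_le hU (by norm_num)
      _ = U := Real.rpow_one U
  have hs0 : 0 ≤ √U := Real.sqrt_nonneg U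
  have h1 : (√U * M) ^ ε ≤ (U * M) ^ ε :=
    Real.rpow_le_rpow (by positivity) (by gcongr) hε
  have h2 : U ^ (1 / 3 : ℝ) * √U ≤ U := by
    rw [hs, ← Real.rpow_add hU0]
    calc U ^ (1 / 3 + 1 / 2 : ℝ) ≤ U ^ (1 : ℝ) := Real.rpow_le_rpow_of_exponent_le hU (by norm_num)
      _ = U := Real.rpow_one U
  have h3 : U ^ (1 / 3 : ℝ) * (√U * M) ^ (2 / 3 : ℝ) = (U * M) ^ (2 / 3 : ℝ) := by
    rw [Real.mul_rpow hs0 hM0.le, Real.mul_rpow hU0.le hM0.le, hs, ← Real.rpow_mul hU0.le,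
      ← mul_assoc, ← Real.rpow_add hU0]
    norm_num
  have h4 : U ^ (1 / 3 : ℝ) * (√U) ^ (4 / 3 : ℝ) ≤ U ^ (4 / 3 : ℝ) := by
    rw [hs, ← Real.rpow_mul hU0.le, ← Real.rpow_add hU0]
    exact Real.rpow_le_rpow_of_exponent_le hU (by norm_num)
  have hx0 : 0 ≤ M ^ x := by positivity
  have h5 : U ^ (1 / 3 : ℝ) * (√U) ^ (4 / 3 : ℝ) * M ^ x ≤ U ^ (4 / 3 : ℝ) * M ^ x := by
    gcongr
  have h6 : U ^ (1 / 3 : ℝ) * (√U + M + (√U * M) ^ (2 / 3 : ℝ) + (√U) ^ (4 / 3 : ℝ) * M ^ x) ≤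
      U ^ (1 / 3 : ℝ) * M + U + (U * M) ^ (2 / 3 : ℝ) + U ^ (4 / 3 : ℝ) * M ^ x := by
    rw [← h3]; nlinarith
  calc _ = (√U * M) ^ ε * (U ^ (1 / 3 : ℝ) *
        (√U + M + (√U * M) ^ (2 / 3 : ℝ) + (√U) ^ (4 / 3 : ℝ) * M ^ x)) := by ring
    _ ≤ _ := mul_le_mul h1 h6 (by positivity) (by positivity)

/-- `cover`; first sums: `K = U / w ≥ 1`, `w = N j² N m³`, bound
`(U M)^ε (w^{-2/3} (U + (U M)^{2/3} + U^{4/3} M^x) + M)`; second sums: `K = √U` times `card_PU` -/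
theorem GX.ax {x : ℝ} (hx : 0 ≤ x) (h : GX x) : AX x := by
  intro ε hε
  obtain ⟨C₁, hC₁, h₁⟩ := h (ε / 2) (by linarith)
  obtain ⟨C₂, hC₂, h₂⟩ := card_PU (ε := ε / 2) (by linarith)
  obtain ⟨C₃, hC₃, h₃⟩ := sum_PU
  refine ⟨9 * C₁ * (C₃ + 2 * C₂), by positivity, fun U M hU hM S c hS hc => ?_⟩
  have hU0 : 0 < U := by linarith
  have hM0 : 0 < M := by linarith
  have hN : 0 ≤ N2 c M := Finset.sum_nonneg fun _ _ => by positivity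
  set E : ℝ := (U * M) ^ (ε / 2) with hE
  have hE1 : 1 ≤ E := Real.one_le_rpow (by nlinarith) (by linarith)
  have hEE : (U * M) ^ ε = E * E := by
    rw [hE, ← Real.rpow_add (by positivity)]; congr 1; ring
  set T₀ : ℝ := U + (U * M) ^ (2 / 3 : ℝ) + U ^ (4 / 3 : ℝ) * M ^ x with hT₀
  have hT₀0 : 0 ≤ T₀ := by positivity
  set T : ℝ := U ^ (1 / 3 : ℝ) * M + U + (U * M) ^ (2 / 3 : ℝ) + U ^ (4 / 3 : ℝ) * M ^ x with hT
  have hTT : T = U ^ (1 / 3 : ℝ) * M + T₀ := by rw [hT, hT₀]; ring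
  have hu3 : 0 < U ^ (1 / 3 : ℝ) := by positivity
  have hT0 : 0 ≤ T := by positivity
  set D : ℝ := (√U * M) ^ (ε / 2) *
      (√U + M + (√U * M) ^ (2 / 3 : ℝ) + (√U) ^ (4 / 3 : ℝ) * M ^ x) with hD
  have hD0 : 0 ≤ D := by positivity
  have hDT : U ^ (1 / 3 : ℝ) * D ≤ E * T := gxax_second (by linarith) hU hM
  have hcard : ((PU U).card : ℝ) ≤ C₂ * (E * U ^ (1 / 3 : ℝ)) := by
    refine (h₂ U hU).trans ?_
    have : U ^ (ε / 2) ≤ E := Real.rpow_le_rpow hU0.le (by nlinarith) (by linarith)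
    rw [Real.rpow_add hU0, mul_comm (U ^ (1 / 3 : ℝ))]
    gcongr
  have hs1 : 1 ≤ √U := Real.one_le_sqrt.2 hU
  -- one pair
  have hp : ∀ s : O, ∀ p ∈ PU U,
      (∑ k ∈ sball (U / (nm p.2 ^ 2 * nm p.1 ^ 3)), ‖cs c M (s * p.2 ^ 2 * p.1 ^ 3 * k)‖ ^ 2 +
        ∑ k ∈ sball (√U), ‖cs c M (s * p.2 * p.1 ^ 3 * k ^ 2)‖ ^ 2) ≤
      C₁ * N2 c M * (E * T₀) * (nm p.2 ^ 2 * nm p.1 ^ 3) ^ (-(2 / 3) : ℝ) +
        C₁ * N2 c M * (E * M + D) := by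
    classical
    intro s p hp
    have hp' : p.1 ≠ 0 ∧ p.2 ≠ 0 ∧ (nm p.1 * nm p.2) ^ 3 ≤ U := by
      unfold PU at hp
      exact (Finset.mem_filter.1 hp).2
    obtain ⟨h1, h2, h3⟩ := hp'
    have n1 : 1 ≤ nm p.1 := one_le_nm h1
    have n2 : 1 ≤ nm p.2 := one_le_nm h2
    set w : ℝ := nm p.2 ^ 2 * nm p.1 ^ 3 with hw
    have hw1 : 1 ≤ w := one_le_mul_of_one_le_of_one_le (one_le_pow₀ n2) (one_le_pow₀ n1)
    have hwU : w ≤ U := by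
      refine le_trans ?_ h3
      have : w * 1 ≤ w * nm p.2 := by gcongr
      calc w = w * 1 := (mul_one w).symm
        _ ≤ w * nm p.2 := this
        _ = _ := by rw [hw]; ring
    have hK : 1 ≤ U / w := (one_le_div (by linarith)).2 hwU
    have hK0 : 0 < U / w := by linarith
    have a1 := rows_fix1 (h₁ (U / w) M hK hM) (by positivity) (s * p.2 ^ 2 * p.1 ^ 3) hc
    have a2 := rows_fix2 (h₁ (√U) M hs1 hM) (by positivity) (s * p.2 * p.1 ^ 3) hc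
    have b1 := gxax_first (x := x) (ε := ε / 2) (by linarith) hU hM hw1
    have c1 : C₁ * (U / w * M) ^ (ε / 2) *
        (U / w + M + (U / w * M) ^ (2 / 3 : ℝ) + (U / w) ^ (4 / 3 : ℝ) * M ^ x) * N2 c M ≤
        C₁ * N2 c M * (E * (w ^ (-(2 / 3) : ℝ) * T₀ + M)) := by
      calc _ = C₁ * N2 c M * ((U / w * M) ^ (ε / 2) *
            (U / w + M + (U / w * M) ^ (2 / 3 : ℝ) + (U / w) ^ (4 / 3 : ℝ) * M ^ x)) := by ring
        _ ≤ _ := mul_le_mul_of_nonneg_left b1 (by positivity)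
    calc _ ≤ C₁ * N2 c M * (E * (w ^ (-(2 / 3) : ℝ) * T₀ + M)) +
          C₁ * (√U * M) ^ (ε / 2) *
            (√U + M + (√U * M) ^ (2 / 3 : ℝ) + (√U) ^ (4 / 3 : ℝ) * M ^ x) * N2 c M :=
          add_le_add (a1.trans c1) a2
      _ = _ := by rw [hD]; ring
  have hrow : ∀ s : O, ∑ p ∈ PU U,
      (∑ k ∈ sball (U / (nm p.2 ^ 2 * nm p.1 ^ 3)), ‖cs c M (s * p.2 ^ 2 * p.1 ^ 3 * k)‖ ^ 2 +
        ∑ k ∈ sball (√U), ‖cs c M (s * p.2 * p.1 ^ 3 * k ^ 2)‖ ^ 2) ≤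
      C₁ * N2 c M * ((C₃ + 2 * C₂) * (E * E * T)) := by
    intro s
    refine (Finset.sum_le_sum (hp s)).trans ?_
    rw [Finset.sum_add_distrib, ← Finset.mul_sum, Finset.sum_const, nsmul_eq_mul]
    have e1 : C₁ * N2 c M * (E * T₀) *
        ∑ p ∈ PU U, (nm p.2 ^ 2 * nm p.1 ^ 3) ^ (-(2 / 3) : ℝ) ≤
        C₁ * N2 c M * (C₃ * (E * E * T)) := by
      have : E * T₀ ≤ E * E * T := by
        have t1 : T₀ ≤ T := by rw [hTT]; nlinarith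
        have t2 : E ≤ E * E := by nlinarith
        exact mul_le_mul t2 t1 hT₀0 (by positivity)
      calc _ ≤ C₁ * N2 c M * (E * T₀) * C₃ :=
            mul_le_mul_of_nonneg_left (h₃ U) (by positivity)
        _ = C₁ * N2 c M * (C₃ * (E * T₀)) := by ring
        _ ≤ _ := by gcongr
    have e2 : ((PU U).card : ℝ) * (C₁ * N2 c M * (E * M + D)) ≤
        C₁ * N2 c M * (2 * C₂ * (E * E * T)) := by
      have t1 : U ^ (1 / 3 : ℝ) * M ≤ T := by rw [hTT]; linarith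
      have t2 : E * U ^ (1 / 3 : ℝ) * (E * M + D) ≤ 2 * (E * E * T) := by
        have u1 : E * E * (U ^ (1 / 3 : ℝ) * M) ≤ E * E * T := by gcongr
        have u2 : E * (U ^ (1 / 3 : ℝ) * D) ≤ E * (E * T) := by gcongr
        nlinarith
      calc _ ≤ C₂ * (E * U ^ (1 / 3 : ℝ)) * (C₁ * N2 c M * (E * M + D)) :=
            mul_le_mul_of_nonneg_right hcard (by positivity)
        _ = C₁ * N2 c M * (C₂ * (E * U ^ (1 / 3 : ℝ) * (E * M + D))) := by ring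
        _ ≤ C₁ * N2 c M * (C₂ * (2 * (E * E * T))) := by gcongr
        _ = _ := by ring
    calc _ ≤ C₁ * N2 c M * (C₃ * (E * E * T)) + C₁ * N2 c M * (2 * C₂ * (E * E * T)) :=
          add_le_add e1 e2
      _ = _ := by ring
  have hcov := cover hS (f := fun k => ‖cs c M k‖ ^ 2) (fun k => by positivity)
  refine hcov.trans ((Finset.sum_le_sum fun s _ => hrow s).trans ?_)
  rw [Finset.sum_const, nsmul_eq_mul, hEE]
  have h9 : (S9.card : ℝ) ≤ 9 := by exact_mod_cast card_S9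
  calc _ ≤ 9 * (C₁ * N2 c M * ((C₃ + 2 * C₂) * (E * E * T))) :=
        mul_le_mul_of_nonneg_right h9 (by positivity)
    _ = _ := by ring

end Crest.Agent.R12.LS
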