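import Crest.Agent.R12.LS.Defs
import Crest.Agent.R17.E.Dual

/-! Row 12, block LS: symmetry, start and end of the recursion. -/

set_option autoImplicit false

namespace Crest.Agent.R12.LS

open Crest.Agent.R17
open scoped ComplexConjugate

theorem lsb_N2_nonneg (c : O → ℂ) (M : ℝ) : 0 ≤ N2 c M :=
  Finset.sum_nonneg fun _ _ => by positivity

theorem LB.mono {K M Δ Δ' : ℝ} (h : LB K M Δ) (hΔ : Δ ≤ Δ') : LB K M Δ' := by
  intro S c hS hc
  exact (h S c hS hc).trans (mul_le_mul_of_nonneg_right hΔ (lsb_N2_nonneg c M))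

theorem lsb_sub (X : ℝ) : sball X ⊆ ball X := fun _ hn => mem_ball.2 (mem_sball.1 hn).1

/-- `R17.E.op_dual` for the matrix `cb k n` on `sball × sball`, `cb_recip` -/
theorem LB.symm {K M Δ : ℝ} (h : LB K M Δ) (hΔ : 0 ≤ Δ) : LB M K Δ := by
  classical
  intro S c hS hc
  have key := E.op_dual (sball K) (sball M) (fun k l => cb k l) hΔ (fun a => ?_) c
  · have h0 : ∀ n ∈ ball K, n ∉ sball K → c n = 0 := fun n hn hn' => by
      by_contra h1
      exact hn' (mem_sball.2 ⟨(hc n h1).2.2, (hc n h1).1⟩)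
    have h1 : N2 c K = E.nsq (sball K) c := by
      refine (Finset.sum_subset (lsb_sub K) fun n hn hn' => ?_).symm
      simp [h0 n hn hn']
    have h2 : ∀ l ∈ sball M, cs c K l = ∑ k ∈ sball K, c k * cb k l := fun l hl => by
      rw [cs, ← Finset.sum_subset (lsb_sub K) fun n hn hn' => by simp [h0 n hn hn']]
      exact Finset.sum_congr rfl fun k hk => by
        rw [cb_recip (mem_sball.1 hl).2.1 (mem_sball.1 hk).2.1]
    have h3 : S ⊆ sball M := fun l hl => mem_sball.2 ⟨(hS l hl).2, (hS l hl).1⟩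
    rw [h1]
    refine le_trans ?_ key
    refine (Finset.sum_le_sum_of_subset_of_nonneg h3 fun _ _ _ => by positivity).trans (le_of_eq ?_)
    exact Finset.sum_congr rfl fun l hl => by rw [h2 l hl]
  · have h1 := h (sball K) (fun n => if n ∈ sball M then a n else 0)
      (fun k hk => ⟨(mem_sball.1 hk).2, (mem_sball.1 hk).1⟩) fun b hb => by
        have hb' : b ∈ sball M := by
          by_contra h2
          exact hb (if_neg h2)
        exact ⟨(mem_sball.1 hb').2, nm_pos (mem_sball.1 hb').2.ne_zero, (mem_sball.1 hb').1⟩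
    have h2 : N2 (fun n => if n ∈ sball M then a n else 0) M = E.nsq (sball M) a := by
      rw [N2, ← Finset.sum_subset (lsb_sub M) fun n _ hn' => by simp [hn']]
      exact Finset.sum_congr rfl fun n hn => by rw [if_pos hn]
    have h3 : ∀ k, cs (fun n => if n ∈ sball M then a n else 0) M k =
        ∑ l ∈ sball M, a l * cb k l := fun k => by
      rw [cs, ← Finset.sum_subset (lsb_sub M) fun n _ hn' => by simp [hn']]
      exact Finset.sum_congr rfl fun n hn => by rw [if_pos hn]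
    simpa only [h2, h3] using h1

/-- Cauchy–Schwarz, `card_ball_le` -/
theorem LB_triv {K M : ℝ} (hK : 1 ≤ K) (hM : 1 ≤ M) : LB K M (121 * (K * M)) := by
  intro S c hS hc
  have h1 : ∀ k, ‖cs c M k‖ ^ 2 ≤ 11 * M * N2 c M := fun k => by
    have h2 : ‖cs c M k‖ ≤ ∑ n ∈ ball M, ‖c n‖ :=
      (norm_sum_le _ _).trans (Finset.sum_le_sum fun n _ => by
        rw [norm_mul]
        exact mul_le_of_le_one_right (norm_nonneg _) (norm_cb_le k n))
    calc ‖cs c M k‖ ^ 2 ≤ (∑ n ∈ ball M, ‖c n‖) ^ 2 := pow_le_pow_left₀ (norm_nonneg _) h2 2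
      _ ≤ (ball M).card * N2 c M := sq_sum_le_card_mul_sum_sq
      _ ≤ 11 * M * N2 c M := mul_le_mul_of_nonneg_right (card_ball_le hM) (lsb_N2_nonneg c M)
  have h3 : (S.card : ℝ) ≤ 11 * K :=
    (Nat.cast_le.2 (Finset.card_le_card fun k hk => mem_ball.2 (hS k hk).2)).trans (card_ball_le hK)
  have h4 := lsb_N2_nonneg c M
  calc ∑ k ∈ S, ‖cs c M k‖ ^ 2 ≤ ∑ _k ∈ S, 11 * M * N2 c M := Finset.sum_le_sum fun k _ => h1 k
    _ = S.card * (11 * M * N2 c M) := by simp
    _ ≤ 11 * K * (11 * M * N2 c M) := mul_le_mul_of_nonneg_right h3 (by positivity)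
    _ = 121 * (K * M) * N2 c M := by ring

theorem gx_one : GX 1 := by
  intro ε hε
  refine ⟨121, by norm_num, fun K M hK hM => (LB_triv hK hM).mono ?_⟩
  have h1 : 1 ≤ (K * M) ^ ε := Real.one_le_rpow (one_le_mul_of_one_le_of_one_le hK hM) hε.le
  have h2 : K ≤ K ^ (4 / 3 : ℝ) := Real.self_le_rpow_of_one_le hK (by norm_num)
  have h3 : 0 ≤ (K * M) ^ (2 / 3 : ℝ) := by positivity
  rw [Real.rpow_one, mul_assoc]
  refine mul_le_mul_of_nonneg_left ?_ (by norm_num)
  have h4 : K * M ≤ K + M + (K * M) ^ (2 / 3 : ℝ) + K ^ (4 / 3 : ℝ) * M := by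
    nlinarith [mul_le_mul_of_nonneg_right h2 (zero_le_one.trans hM)]
  exact h4.trans (le_mul_of_one_le_left (by positivity) h1)

/-- `K ≥ M`: directly; `K ≤ M`: `LB.symm` -/
theorem EX.gx {x : ℝ} (hx : 0 ≤ x) (h : EX x) : GX x := by
  intro ε hε
  obtain ⟨C, hC, h⟩ := h ε hε
  refine ⟨C, hC, fun K M hK hM => ?_⟩
  have hK0 : 0 < K := by linarith
  have hM0 : 0 < M := by linarith
  rcases le_total M K with hMK | hKM
  · refine (h K M hK hM).mono (mul_le_mul_of_nonneg_left ?_ (by positivity))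
    rw [Real.rpow_add hM0]
    have := mul_le_mul_of_nonneg_right (Real.rpow_le_rpow hM0.le hMK (by norm_num : (0 : ℝ) ≤ 4 / 3))
      (Real.rpow_nonneg hM0.le x)
    linarith
  · refine ((h M K hM hK).symm (by positivity)).mono ?_
    rw [mul_comm M K]
    refine mul_le_mul_of_nonneg_left ?_ (by positivity)
    rw [Real.rpow_add hK0]
    have := mul_le_mul_of_nonneg_left (Real.rpow_le_rpow hK0.le hKM hx)
      (Real.rpow_nonneg hK0.le (4 / 3 : ℝ))
    linarith

/-- `K ≤ M`: `K^{4/3} M^x ≤ (K M)^{2/3 + x}`; `K ≥ M`: `LB.symm` -/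
theorem stLS_of (h : ∀ ε : ℝ, 0 < ε → ∃ x : ℝ, 0 ≤ x ∧ x ≤ ε ∧ GX x) : StLS := by
  intro ε hε
  obtain ⟨x, hx, hxε, h⟩ := h (ε / 2) (by linarith)
  obtain ⟨C, hC, h⟩ := h (ε / 2) (by linarith)
  have key : ∀ K M : ℝ, 1 ≤ K → K ≤ M →
      LB K M (2 * C * (K * M) ^ ε * (K + M + (K * M) ^ (2 / 3 : ℝ))) := by
    intro K M hK hKM
    have hM : 1 ≤ M := hK.trans hKM
    have hK0 : 0 < K := by linarith
    have hM0 : 0 < M := by linarith
    have hKM1 : 1 ≤ K * M := one_le_mul_of_one_le_of_one_le hK hM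
    refine (h K M hK hM).mono ?_
    have h1 : K ^ (4 / 3 : ℝ) ≤ (K * M) ^ (2 / 3 : ℝ) := by
      have : K ^ (4 / 3 : ℝ) = (K * K) ^ (2 / 3 : ℝ) := by
        rw [Real.mul_rpow hK0.le hK0.le, ← Real.rpow_add hK0]
        norm_num
      rw [this]
      exact Real.rpow_le_rpow (by positivity) (mul_le_mul_of_nonneg_left hKM hK0.le) (by norm_num)
    have h2 : M ^ x ≤ (K * M) ^ (ε / 2) :=
      (Real.rpow_le_rpow hM0.le (le_mul_of_one_le_left hM0.le hK) hx).trans
        (Real.rpow_le_rpow_of_exponent_le hKM1 hxε)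
    have h3 : 1 ≤ (K * M) ^ (ε / 2) := Real.one_le_rpow hKM1 (by linarith)
    have h4 : (K * M) ^ ε = (K * M) ^ (ε / 2) * (K * M) ^ (ε / 2) := by
      rw [← Real.rpow_add (by positivity)]
      norm_num
    have h5 := mul_le_mul h1 h2 (by positivity) (by positivity)
    rw [h4]
    have h6 : 0 ≤ (K * M) ^ (2 / 3 : ℝ) := by positivity
    generalize (K * M) ^ (ε / 2) = E at *
    generalize (K * M) ^ (2 / 3 : ℝ) = T at *
    have h7 : K + M + T + K ^ (4 / 3 : ℝ) * M ^ x ≤ 2 * E * (K + M + T) := by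
      nlinarith [mul_le_mul_of_nonneg_right h3 (show 0 ≤ K + M + T by positivity),
        mul_nonneg (show 0 ≤ E by linarith) (show 0 ≤ K + M by positivity)]
    calc C * E * (K + M + T + K ^ (4 / 3 : ℝ) * M ^ x) ≤ C * E * (2 * E * (K + M + T)) :=
          mul_le_mul_of_nonneg_left h7 (by positivity)
      _ = 2 * C * (E * E) * (K + M + T) := by ring
  refine ⟨2 * C, fun K M S c hK hM hS hc => ?_⟩
  rcases le_total K M with hKM | hMK
  · exact key K M hK hKM S c hS hc
  · have := (key M K hM hMK).symm (by positivity) S c hS hc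
    rwa [mul_comm M K, add_comm M K] at this

end Crest.Agent.R12.LS
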