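import Crest.Agent.R12.Base.All
import Crest.Agent.R12.Iface

/-! Row 12, block LS (owner helper14): the cubic large sieve from `StPO`.
`GX 1` is trivial, `GX x → AX x` (all rows), `StPO → AX x → EX (2x/3)`, `EX x → GX x` (symmetry). -/

set_option autoImplicit false

namespace Crest.Agent.R12.LS

open Crest.Agent.R17
open scoped ComplexConjugate

/-- column sum -/
noncomputable def cs (c : O → ℂ) (M : ℝ) (k : O) : ℂ := ∑ n ∈ ball M, c n * cb k n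

/-- squarefree rows -/
def LB (K M Δ : ℝ) : Prop :=
  ∀ (S : Finset O) (c : O → ℂ), (∀ k ∈ S, PSq k ∧ nm k ≤ K) → Supp c 0 M →
    ∑ k ∈ S, ‖cs c M k‖ ^ 2 ≤ Δ * N2 c M

/-- all rows -/
def AB (U M Δ : ℝ) : Prop :=
  ∀ (S : Finset O) (c : O → ℂ), (∀ k ∈ S, k ≠ 0 ∧ nm k ≤ U) → Supp c 0 M →
    ∑ k ∈ S, ‖cs c M k‖ ^ 2 ≤ Δ * N2 c M

/-- the invariant of the recursion -/
def GX (x : ℝ) : Prop :=
  ∀ ε : ℝ, 0 < ε → ∃ C : ℝ, 0 < C ∧ ∀ K M : ℝ, 1 ≤ K → 1 ≤ M →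
    LB K M (C * (K * M) ^ ε * (K + M + (K * M) ^ (2 / 3 : ℝ) + K ^ (4 / 3 : ℝ) * M ^ x))

/-- the same for all rows -/
def AX (x : ℝ) : Prop :=
  ∀ ε : ℝ, 0 < ε → ∃ C : ℝ, 0 < C ∧ ∀ U M : ℝ, 1 ≤ U → 1 ≤ M →
    AB U M (C * (U * M) ^ ε *
      (U ^ (1 / 3 : ℝ) * M + U + (U * M) ^ (2 / 3 : ℝ) + U ^ (4 / 3 : ℝ) * M ^ x))

/-- the output of one step -/
def EX (x : ℝ) : Prop :=
  ∀ ε : ℝ, 0 < ε → ∃ C : ℝ, 0 < C ∧ ∀ K M : ℝ, 1 ≤ K → 1 ≤ M →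
    LB K M (C * (K * M) ^ ε * (K + (K * M) ^ (2 / 3 : ℝ) + M ^ (4 / 3 + x)))

/-- the mass of the label `l` -/
noncomputable def Gl (γ : O → ℂ) (X : ℝ) (l : O) : ℝ := ∑ n ∈ ball X, ‖γ (l * n)‖ ^ 2

/-- the nine classes `ω^a λ^i` -/
noncomputable def S9 : Finset O := by
  classical exact (Finset.range 3 ×ˢ Finset.range 3).image fun p => om ^ p.1 * lam ^ p.2

open Classical in
/-- pairs `(m, j)` with `(N m N j)³ ≤ U` -/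
noncomputable def PU (U : ℝ) : Finset (O × O) :=
  (ball U ×ˢ ball U).filter fun p => p.1 ≠ 0 ∧ p.2 ≠ 0 ∧ (nm p.1 * nm p.2) ^ 3 ≤ U

end Crest.Agent.R12.LS
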