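import Crest.Agent.R12.LS.Row

/-! Row 12, block LS: one step of the recursion. -/

set_option autoImplicit false

namespace Crest.Agent.R12.LS

open Crest.Agent.R17
open scoped ComplexConjugate

theorem lssa_XG {γ : O → ℂ} {B X : ℝ} (hγ : Supp γ B X) (h2 : ∀ b, (2 : O) ∣ b → γ b = 0) (k : O)
    (i : ℕ) : XG γ X (k * ((-2) ^ 3) ^ i) = XG γ X k := by
  refine Finset.sum_congr rfl fun b _ => ?_
  by_cases hb : γ b = 0
  · simp [hb]
  have h3 := (hγ b hb).1.1.coprime_three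
  have hc : IsCoprime (-2 : O) b :=
    (prime_two.coprime_iff_not_dvd.2 fun h => hb (h2 b h)).neg_left
  rw [cb_mul_left, cb_pow_left' _ h3, cb_pow_left' _ h3, cb_pow_three, if_pos ⟨h3, hc⟩, one_pow,
    mul_one]

theorem lssa_nm (k : O) (i : ℕ) : nm (k * ((-2) ^ 3) ^ i) = nm k * 64 ^ i := by
  have h : nm (2 : O) = 4 := by rw [nm, nN_two]; norm_num
  rw [nm_mul, nm_pow, nm_pow, nm_neg, h]
  norm_num

theorem lssa_idx {t : ℝ} (ht : 1 ≤ t) :
    (64 : ℝ) ^ Nat.log 64 ⌊t⌋₊ ≤ t ∧ t ≤ 64 * 64 ^ Nat.log 64 ⌊t⌋₊ := by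
  have h1 : ⌊t⌋₊ ≠ 0 := (Nat.floor_pos.2 ht).ne'
  refine ⟨le_trans ?_ (Nat.floor_le (by linarith)), (Nat.lt_floor_add_one t).le.trans ?_⟩
  · exact_mod_cast Nat.pow_log_le_self 64 h1
  · rw [← pow_succ']
    exact_mod_cast Nat.lt_pow_succ_log_self (by norm_num : 1 < 64) ⌊t⌋₊

theorem lssa_block {A B X : ℝ} {γ : O → ℂ} (hA : 1 ≤ A) (hγ : Supp γ B X)
    (h2 : ∀ b, (2 : O) ∣ b → γ b = 0) (i : ℕ) {T : Finset O}
    (hT : ∀ k ∈ T, Prim k ∧ nm k * 64 ^ i ≤ A ∧ A ≤ 64 * (nm k * 64 ^ i)) :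
    ∑ k ∈ T, ‖XG γ X k‖ ^ 2 ≤ Real.exp (Real.log 64 ^ 2 / (2 * 1 ^ 2)) * EN 1 A γ X := by
  classical
  have hA0 : 0 < A := by linarith
  have hp : Prim (((-2 : O) ^ 3) ^ i) := (prim_neg_two.pow 3).pow i
  have hinj : Set.InjOn (fun k : O => k * ((-2) ^ 3) ^ i) T := fun a _ b _ h =>
    mul_right_cancel₀ hp.ne_zero h
  have h1 := sum_le_EN one_pos hA0 γ X (S := T.image fun k : O => k * ((-2) ^ 3) ^ i) fun x hx => by
    obtain ⟨k, hk, rfl⟩ := Finset.mem_image.1 hx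
    exact (hT k hk).1.mul hp
  rw [Finset.sum_image hinj] at h1
  refine le_trans ?_ (mul_le_mul_of_nonneg_left h1 (Real.exp_pos _).le)
  rw [Finset.mul_sum]
  refine Finset.sum_le_sum fun k hk => ?_
  obtain ⟨hk1, hk2, hk3⟩ := hT k hk
  rw [lssa_XG hγ h2, lssa_nm, ← mul_assoc]
  refine le_mul_of_one_le_left (sq_nonneg _) ?_
  have hx : 0 < nm k * 64 ^ i := by linarith
  have hl : |Real.log (nm k * 64 ^ i / A)| ≤ Real.log 64 := by
    rw [abs_of_nonpos (Real.log_nonpos (by positivity) ((div_le_one hA0).2 hk2)), ← Real.log_inv,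
      inv_div]
    exact Real.log_le_log (by positivity) ((div_le_iff₀ hx).2 hk3)
  have h3 := le_norm_LN (a := 1) hl 0
  rw [norm_LN_eq_LW] at h3
  refine le_trans (le_of_eq ?_) (mul_le_mul_of_nonneg_left h3 (Real.exp_pos _).le)
  rw [← Real.exp_add, add_neg_cancel, Real.exp_zero]

/-- TRANSPORT.  For a row `k` take `i ≤ log A` with `A / 64 < N k · 64^i ≤ A`;
`cb (k (-2)^{3i}) b = cb k b` for odd primary `b`; for fixed `i` the map is injective; `le_norm_LN`,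
`sum_le_EN`. -/
theorem rows_le_EN : ∃ C : ℝ, 0 < C ∧ ∀ (A B X : ℝ) (S : Finset O) (γ : O → ℂ), 1 ≤ A →
    (∀ k ∈ S, Prim k ∧ nm k ≤ A) → Supp γ B X → (∀ b, (2 : O) ∣ b → γ b = 0) →
    ∑ k ∈ S, ‖XG γ X k‖ ^ 2 ≤ C * (1 + Real.log A) * EN 1 A γ X := by
  refine ⟨Real.exp (Real.log 64 ^ 2 / (2 * 1 ^ 2)), Real.exp_pos _, fun A B X S γ hA hS hγ h2 => ?_⟩
  have hA0 : 0 < A := by linarith
  have hlA : 0 ≤ Real.log A := Real.log_nonneg hA
  have hk : ∀ k ∈ S, nm k * 64 ^ Nat.log 64 ⌊A / nm k⌋₊ ≤ A ∧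
      A ≤ 64 * (nm k * 64 ^ Nat.log 64 ⌊A / nm k⌋₊) := fun k hk => by
    have h0 := nm_pos (hS k hk).1.ne_zero
    obtain ⟨a1, a2⟩ := lssa_idx ((one_le_div h0).2 (hS k hk).2)
    rw [le_div_iff₀ h0] at a1
    rw [div_le_iff₀ h0] at a2
    constructor <;> linarith
  have hmap : ∀ k ∈ S, Nat.log 64 ⌊A / nm k⌋₊ ∈ Finset.range (⌊Real.log A⌋₊ + 1) := fun k hk' => by
    rw [Finset.mem_range, Nat.lt_succ_iff]
    refine Nat.le_floor ?_
    have h1 := one_le_nm (hS k hk').1.ne_zero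
    have h3 : (64 : ℝ) ^ Nat.log 64 ⌊A / nm k⌋₊ ≤ A :=
      le_trans (le_mul_of_one_le_left (by positivity) h1) (hk k hk').1
    have h4 := Real.log_le_log (by positivity) h3
    rw [Real.log_pow] at h4
    have h5 : 1 ≤ Real.log 64 := by
      rw [Real.le_log_iff_exp_le (by norm_num)]
      linarith [Real.exp_one_lt_d9]
    exact le_trans (le_mul_of_one_le_right (Nat.cast_nonneg _) h5) h4
  have hEN : 0 ≤ EN 1 A γ X := by
    simpa using sum_le_EN one_pos hA0 γ X (S := ∅) (by simp)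
  rw [← Finset.sum_fiberwise_of_maps_to hmap]
  calc _ ≤ ∑ _i ∈ Finset.range (⌊Real.log A⌋₊ + 1),
        Real.exp (Real.log 64 ^ 2 / (2 * 1 ^ 2)) * EN 1 A γ X := by
        refine Finset.sum_le_sum fun i _ => lssa_block hA hγ h2 i fun k hk' => ?_
        obtain ⟨h1, rfl⟩ := Finset.mem_filter.1 hk'
        exact ⟨(hS k h1).1, hk k h1⟩
    _ = Real.exp (Real.log 64 ^ 2 / (2 * 1 ^ 2)) * ((⌊Real.log A⌋₊ : ℝ) + 1) * EN 1 A γ X := by
        rw [Finset.sum_const, Finset.card_range, nsmul_eq_mul]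
        push_cast
        ring
    _ ≤ _ := by
        have := Nat.floor_le hlA
        rw [add_comm 1]
        gcongr

/-- `γ = conj c · conj GG` -/
theorem exists_gamma {B X : ℝ} {c : O → ℂ} (hc : Supp c B X) : ∃ γ : O → ℂ, Supp γ B X ∧
    (∀ b, c b = 0 → γ b = 0) ∧ N2 γ X = N2 c X ∧ ∀ k, ‖XG γ X k‖ = ‖cs c X k‖ := by
  refine ⟨fun b => conj (c b) * conj (GG b), fun b hb => hc b fun h => hb (by simp [h]),
    fun b h => by simp [h], Finset.sum_congr rfl fun b _ => ?_, fun k => ?_⟩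
  · by_cases h : c b = 0
    · simp [h]
    · rw [norm_mul, RCLike.norm_conj, RCLike.norm_conj, norm_GG (hc b h).1, mul_one]
  · rw [← RCLike.norm_conj (cs c X k), cs, XG, map_sum]
    refine congrArg _ (Finset.sum_congr rfl fun b _ => ?_)
    by_cases h : c b = 0
    · simp [h]
    · rw [map_mul]
      linear_combination conj (c b) * conj (cb k b) * GG_mul_conj (hc b h).1

theorem sb_ball {E : Type*} [AddCommMonoid E] {X Y : ℝ} {g : O → E}
    (h : ∀ n, g n ≠ 0 → nm n ≤ X ∧ nm n ≤ Y) : ∑ n ∈ ball X, g n = ∑ n ∈ ball Y, g n :=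
  Finset.sum_bij_ne_zero (fun n _ _ => n) (fun n _ h' => mem_ball.2 (h n h').2)
    (fun _ _ _ _ _ _ e => e) (fun n _ h' => ⟨n, mem_ball.2 (h n h').1, h', rfl⟩) fun _ _ _ => rfl

theorem sb_clog {b : O} (hb : b ≠ 0) : (2 : ℝ) ^ Nat.clog 2 (nN b) / 2 < nm b ∧
    nm b ≤ 2 * ((2 : ℝ) ^ Nat.clog 2 (nN b) / 2) := by
  have h1 := one_le_nm hb
  have e : nm b = (nN b : ℝ) := rfl
  constructor
  · rcases h : Nat.clog 2 (nN b) with _ | i
    · norm_num; linarith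
    · have h2 : 2 ^ i < nN b := (Nat.lt_clog_iff_pow_lt one_lt_two).1 (by omega)
      have h3 : (2 : ℝ) ^ i < nN b := by exact_mod_cast h2
      rw [e, pow_succ]; linarith
  · have h2 : (nN b : ℝ) ≤ (2 : ℝ) ^ Nat.clog 2 (nN b) := by
      exact_mod_cast Nat.le_pow_clog one_lt_two (nN b)
    rw [e]; linarith

theorem sb_card {M : ℝ} (hM : 1 ≤ M) {I : Finset ℕ} (hI : ∀ i ∈ I, (2 : ℝ) ^ i / 2 ≤ M) :
    (I.card : ℝ) ≤ 2 * (1 + Real.log M) := by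
  have hL := Real.log_nonneg hM
  have h2 := Real.log_two_gt_d9
  have a1 : I ⊆ Finset.range (⌊1 + 2 * Real.log M⌋₊ + 1) := fun i hi => by
    rw [Finset.mem_range, Nat.lt_succ_iff]
    refine Nat.le_floor ?_
    have a2 := Real.log_le_log (by positivity) (hI i hi)
    rw [Real.log_div (by positivity) two_ne_zero, Real.log_pow] at a2
    by_contra hc
    nlinarith
  have a2 : (I.card : ℝ) ≤ ((⌊1 + 2 * Real.log M⌋₊ + 1 : ℕ) : ℝ) := by
    exact_mod_cast (Finset.card_le_card a1).trans_eq (Finset.card_range _)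
  have a3 := Nat.floor_le (a := 1 + 2 * Real.log M) (by positivity)
  push_cast at a2
  linarith

/-- dyadic blocks `(2^i / 2, 2^i]`, `i ≤ J`, `2^J ≤ 2 M`; Cauchy–Schwarz; empty blocks are free -/
theorem dyadic {ε : ℝ} (hε : 0 < ε) : ∃ C : ℝ, 0 < C ∧ ∀ (M Δ : ℝ) (S : Finset O) (c : O → ℂ), 1 ≤ M →
    0 ≤ Δ → Supp c 0 M →
    (∀ (B : ℝ) (c' : O → ℂ), 1 / 2 ≤ B → B ≤ M → Supp c' B (2 * B) → (∀ b, c b = 0 → c' b = 0) →
      ∑ k ∈ S, ‖cs c' (2 * B) k‖ ^ 2 ≤ Δ * N2 c' (2 * B)) →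
    ∑ k ∈ S, ‖cs c M k‖ ^ 2 ≤ C * M ^ ε * Δ * N2 c M := by
  classical
  obtain ⟨C, hC, hlog⟩ := one_add_log_rpow_le 1 hε
  refine ⟨2 * C, by positivity, fun M Δ S c hM hΔ hc h => ?_⟩
  obtain ⟨I, hI⟩ : ∃ I : Finset ℕ,
    I = ((ball M).filter fun b => c b ≠ 0).image fun b => Nat.clog 2 (nN b) := ⟨_, rfl⟩
  obtain ⟨d, hd⟩ : ∃ d : ℕ → O → ℂ, d = fun i b => if Nat.clog 2 (nN b) = i then c b else 0 :=
    ⟨_, rfl⟩
  have hd0 : ∀ i b, d i b ≠ 0 → Nat.clog 2 (nN b) = i ∧ c b ≠ 0 := fun i b hb => by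
    rw [hd] at hb
    simpa using hb
  have hIM : ∀ i ∈ I, (2 : ℝ) ^ i / 2 ≤ M := fun i hi => by
    rw [hI] at hi
    obtain ⟨b, hb, rfl⟩ := Finset.mem_image.1 hi
    have := hc b (Finset.mem_filter.1 hb).2
    exact (sb_clog this.1.ne_zero).1.le.trans this.2.2
  have hS : ∀ i, Supp (d i) (2 ^ i / 2) (2 * (2 ^ i / 2)) := fun i b hb => by
    obtain ⟨rfl, h0⟩ := hd0 i b hb
    exact ⟨(hc b h0).1, sb_clog (hc b h0).1.ne_zero⟩
  have hmem : ∀ b ∈ ball M, c b ≠ 0 → Nat.clog 2 (nN b) ∈ I := fun b hb h0 => by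
    rw [hI]
    exact Finset.mem_image_of_mem _ (Finset.mem_filter.2 ⟨hb, h0⟩)
  have e1 : ∀ k, cs c M k = ∑ i ∈ I, cs (d i) (2 * (2 ^ i / 2)) k := fun k => by
    have : ∀ i, cs (d i) (2 * (2 ^ i / 2)) k = cs (d i) M k := fun i => sb_ball fun n hn =>
      ⟨(hS i n (left_ne_zero_of_mul hn)).2.2, (hc n (hd0 i n (left_ne_zero_of_mul hn)).2).2.2⟩
    simp only [this]
    unfold cs
    rw [Finset.sum_comm]
    refine Finset.sum_congr rfl fun b hb => ?_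
    rw [← Finset.sum_mul, hd]
    simp only [Finset.sum_ite_eq]
    split_ifs with h'
    · rfl
    · rw [not_not.1 (mt (hmem b hb) h')]
  have e2 : ∑ i ∈ I, N2 (d i) (2 * (2 ^ i / 2)) ≤ N2 c M := by
    have : ∀ i, N2 (d i) (2 * (2 ^ i / 2)) = N2 (d i) M := fun i => sb_ball fun n hn => by
      have h0 : d i n ≠ 0 := by simpa using hn
      exact ⟨(hS i n h0).2.2, (hc n (hd0 i n h0).2).2.2⟩
    simp only [this]
    unfold N2
    rw [Finset.sum_comm]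
    refine Finset.sum_le_sum fun b _ => ?_
    rw [hd]
    simp only [apply_ite fun z : ℂ => ‖z‖ ^ 2, norm_zero, zero_pow two_ne_zero, Finset.sum_ite_eq]
    split_ifs
    · exact le_rfl
    · positivity
  have e3 := hlog M hM
  rw [Real.rpow_one] at e3
  have e4 := sb_card hM hIM
  have hN := N2_nonneg c M
  calc ∑ k ∈ S, ‖cs c M k‖ ^ 2
      ≤ ∑ k ∈ S, I.card * ∑ i ∈ I, ‖cs (d i) (2 * (2 ^ i / 2)) k‖ ^ 2 := by
        refine Finset.sum_le_sum fun k _ => ?_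
        rw [e1]
        exact (pow_le_pow_left₀ (norm_nonneg _) (norm_sum_le _ _) 2).trans sq_sum_le_card_mul_sum_sq
    _ ≤ I.card * (Δ * N2 c M) := by
        rw [← Finset.mul_sum, Finset.sum_comm]
        refine mul_le_mul_of_nonneg_left ((Finset.sum_le_sum fun i hi => h _ (d i) ?_ (hIM i hi) (hS i)
          fun b hb => ?_).trans ?_) (Nat.cast_nonneg _)
        · have : (1 : ℝ) ≤ 2 ^ i := one_le_pow₀ one_le_two
          linarith
        · by_contra h0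
          exact (hd0 i b h0).2 hb
        · rw [← Finset.mul_sum]
          exact mul_le_mul_of_nonneg_left e2 hΔ
    _ ≤ 2 * (C * M ^ ε) * (Δ * N2 c M) := by
        refine mul_le_mul_of_nonneg_right ?_ (by positivity)
        linarith
    _ = _ := by ring

open Classical in
theorem sb_even {E : Type*} [AddCommMonoid E] {M : ℝ} {g : O → E} (h : ∀ n, g n ≠ 0 → nm n ≤ M) :
    ∑ n ∈ ball M, g n = ∑ n ∈ ball M, (if (2 : O) ∣ n then 0 else g n) + ∑ n ∈ ball M, g (-2 * n) := by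
  have h2 : (-2 : O) ≠ 0 := prim_neg_two.ne_zero
  have e : ∑ n ∈ ball M, g (-2 * n) = ∑ n ∈ ball M, if (2 : O) ∣ n then g n else 0 := by
    refine Finset.sum_bij_ne_zero (fun n _ _ => -2 * n) (fun n _ h' => mem_ball.2 (h _ h'))
      (fun _ _ _ _ _ _ e => mul_left_cancel₀ h2 e) (fun n hn h' => ?_) fun n _ _ => ?_
    · obtain ⟨⟨m, rfl⟩, h0⟩ : (2 : O) ∣ n ∧ g n ≠ 0 := by simpa using h'
      refine ⟨-m, mem_ball.2 (le_trans ?_ (mem_ball.1 hn)), by simpa using h0, by ring⟩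
      rw [nm_neg, nm_mul]
      exact le_mul_of_one_le_left (nm_nonneg m) (one_le_nm two_ne_zero)
    · rw [if_pos ⟨-n, by ring⟩]
  rw [e, ← Finset.sum_add_distrib]
  refine Finset.sum_congr rfl fun n _ => ?_
  split_ifs <;> simp

/-- `c = c_odd + c_even`, `cs c_even M k = cb k (-2) · cs c' M k` with `c' n = c (-2 n)` -/
theorem parity {M Δ : ℝ} (hΔ : 0 ≤ Δ) {S : Finset O}
    (h : ∀ c : O → ℂ, Supp c 0 M → (∀ b, (2 : O) ∣ b → c b = 0) →
      ∑ k ∈ S, ‖cs c M k‖ ^ 2 ≤ Δ * N2 c M) {c : O → ℂ} (hc : Supp c 0 M) :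
    ∑ k ∈ S, ‖cs c M k‖ ^ 2 ≤ 4 * Δ * N2 c M := by
  classical
  obtain ⟨c₁, h₁⟩ : ∃ c₁ : O → ℂ, c₁ = fun n => if (2 : O) ∣ n then 0 else c n := ⟨_, rfl⟩
  obtain ⟨c₂, h₂⟩ : ∃ c₂ : O → ℂ, c₂ = fun n => c (-2 * n) := ⟨_, rfl⟩
  have a1 := h c₁ (fun b hb => hc b fun h0 => hb (by rw [h₁]; simp [h0])) fun b hb => by
    rw [h₁]; exact if_pos hb
  have a2 := h c₂ (fun b hb => by
      rw [h₂] at hb
      obtain ⟨b1, -, b3⟩ := hc _ hb
      have b4 := PSq.of_mul_left prim_neg_two b1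
      refine ⟨b4, nm_pos b4.ne_zero, le_trans ?_ b3⟩
      rw [nm_mul]
      exact le_mul_of_one_le_left (nm_nonneg b) (one_le_nm prim_neg_two.ne_zero)) fun b hb => by
    rw [h₂]
    by_contra h0
    obtain ⟨m, rfl⟩ := hb
    exact prime_two.not_isUnit ((hc _ h0).1.2 2 ⟨-m, by ring⟩)
  have e1 : ∀ k, cs c M k = cs c₁ M k + cb k (-2) * cs c₂ M k := fun k => by
    unfold cs
    rw [sb_even fun n hn => (hc n (left_ne_zero_of_mul hn)).2.2, Finset.mul_sum, h₁, h₂]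
    congr 1
    · exact Finset.sum_congr rfl fun n _ => by split_ifs <;> simp [*]
    · exact Finset.sum_congr rfl fun n _ => by rw [cb_mul_right]; ring
  have e2 : N2 c M = N2 c₁ M + N2 c₂ M := by
    unfold N2
    rw [sb_even fun n hn => (hc n (by simpa using hn)).2.2, h₁, h₂]
    congr 1
    exact Finset.sum_congr rfl fun n _ => by split_ifs <;> simp [*]
  have a3 : ∑ k ∈ S, ‖cs c M k‖ ^ 2 ≤ 2 * ∑ k ∈ S, ‖cs c₁ M k‖ ^ 2 + 2 * ∑ k ∈ S, ‖cs c₂ M k‖ ^ 2 := by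
    rw [Finset.mul_sum, Finset.mul_sum, ← Finset.sum_add_distrib]
    refine Finset.sum_le_sum fun k _ => ?_
    have b1 : ‖cs c M k‖ ≤ ‖cs c₁ M k‖ + ‖cs c₂ M k‖ := by
      rw [e1]
      refine (norm_add_le _ _).trans (add_le_add le_rfl ?_)
      rw [norm_mul]
      exact mul_le_of_le_one_left (norm_nonneg _) (norm_cb_le _ _)
    refine (pow_le_pow_left₀ (norm_nonneg _) b1 2).trans ?_
    nlinarith [sq_nonneg (‖cs c₁ M k‖ - ‖cs c₂ M k‖)]
  have a4 := mul_nonneg hΔ (N2_nonneg c M)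
  rw [e2] at a4 ⊢
  nlinarith

theorem stc_num {K M x : ℝ} (hK : 1 ≤ K) (hM : 1 ≤ M) (hx1 : x ≤ 1) :
    max K ((2 * M) ^ (1 + x)) + (max K ((2 * M) ^ (1 + x)) * (2 * M)) ^ (2 / 3 : ℝ) +
        (2 * M) ^ (4 / 3 + 2 / 3 * x) ≤
      12 * (K + (K * M) ^ (2 / 3 : ℝ) + M ^ (4 / 3 + 2 / 3 * x)) := by
  have h2M : (1 : ℝ) ≤ 2 * M := by linarith
  have h1 : (2 * M) ^ (4 / 3 + 2 / 3 * x) ≤ 4 * M ^ (4 / 3 + 2 / 3 * x) := by
    rw [Real.mul_rpow (by norm_num) (by linarith)]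
    refine mul_le_mul_of_nonneg_right ?_ (by positivity)
    calc (2 : ℝ) ^ (4 / 3 + 2 / 3 * x) ≤ 2 ^ (2 : ℝ) :=
          Real.rpow_le_rpow_of_exponent_le (by norm_num) (by linarith)
      _ = 4 := by norm_num
  have h2 : (2 * M) ^ (1 + x) ≤ (2 * M) ^ (4 / 3 + 2 / 3 * x) :=
    Real.rpow_le_rpow_of_exponent_le h2M (by linarith)
  have h3 : (K * (2 * M)) ^ (2 / 3 : ℝ) ≤ 2 * (K * M) ^ (2 / 3 : ℝ) := by
    rw [show K * (2 * M) = 2 * (K * M) by ring, Real.mul_rpow (by norm_num) (by positivity)]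
    refine mul_le_mul_of_nonneg_right ?_ (by positivity)
    calc (2 : ℝ) ^ (2 / 3 : ℝ) ≤ 2 ^ (1 : ℝ) :=
          Real.rpow_le_rpow_of_exponent_le (by norm_num) (by norm_num)
      _ = 2 := by norm_num
  have h4 : ((2 * M) ^ (1 + x) * (2 * M)) ^ (2 / 3 : ℝ) = (2 * M) ^ (4 / 3 + 2 / 3 * x) := by
    rw [← Real.rpow_add_one (by linarith), ← Real.rpow_mul (by linarith)]
    congr 1
    ring
  have h5 : 0 ≤ (K * M) ^ (2 / 3 : ℝ) := by positivity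
  have h6 : 0 ≤ M ^ (4 / 3 + 2 / 3 * x) := by positivity
  rcases le_total K ((2 * M) ^ (1 + x)) with h | h
  · rw [max_eq_right h, h4]
    linarith
  · rw [max_eq_left h]
    linarith

/-- `A = max K ((2 M)^{1+x})`; `parity`, `dyadic`, `exists_gamma`, `rows_le_EN`, `EN_le`,
`one_add_log_rpow_le` -/
theorem step (hPO : StPO) {x : ℝ} (hx : 0 ≤ x) (hx1 : x ≤ 1) (h : AX x) : EX (2 / 3 * x) := by
  intro ε hε
  have hδ : 0 < ε / 4 := by positivity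
  obtain ⟨C₀, hC₀, H₀⟩ := rows_le_EN
  obtain ⟨C₁, hC₁, H₁⟩ := EN_le hPO hx h hδ
  obtain ⟨C₂, hC₂, H₂⟩ := one_add_log_rpow_le 1 hδ
  obtain ⟨C₃, hC₃, H₃⟩ := dyadic hδ
  refine ⟨48 * C₀ * C₁ * C₂ * C₃ * 2 ^ ε, by positivity, fun K M hK hM S c hS hc => ?_⟩
  set A := max K ((2 * M) ^ (1 + x)) with hA
  set W := A + (A * (2 * M)) ^ (2 / 3 : ℝ) + (2 * M) ^ (4 / 3 + 2 / 3 * x) with hW
  have hA1 : 1 ≤ A := hK.trans (le_max_left _ _)
  have hL : 0 ≤ 1 + Real.log A := by linarith [Real.log_nonneg hA1]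
  have hW0 : 0 ≤ W := by positivity
  set Δ := C₀ * (1 + Real.log A) * (C₁ * (2 * M) ^ (ε / 4) * W) with hΔ
  have hΔ0 : 0 ≤ Δ := by positivity
  have hN : ∀ (γ : O → ℂ) (X : ℝ), 0 ≤ N2 γ X := fun γ X =>
    Finset.sum_nonneg fun _ _ => by positivity
  have key := parity (M := M) (Δ := C₃ * M ^ (ε / 4) * Δ) (S := S) (by positivity)
    (fun c hc hodd => H₃ M Δ S c hM hΔ0 hc fun B c' hB hBM hc' h0 => by
      obtain ⟨γ, hγ, hγ0, hN2, hXG⟩ := exists_gamma hc'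
      have hB0 : 0 < B := by linarith
      have e1 : (2 * B) ^ (1 + x) ≤ A :=
        le_trans (by gcongr) (le_max_right K ((2 * M) ^ (1 + x)))
      have e2 := H₀ A B (2 * B) S γ hA1
        (fun k hk => ⟨(hS k hk).1.1, (hS k hk).2.trans (le_max_left _ _)⟩) hγ
        fun b hb => hγ0 b (h0 b (hodd b hb))
      have e3 := H₁ A B γ hB e1 hγ
      simp only [hXG] at e2
      rw [hN2] at e3
      refine e2.trans ?_
      rw [hΔ, mul_assoc (C₀ * (1 + Real.log A))]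
      refine mul_le_mul_of_nonneg_left (e3.trans ?_) (by positivity)
      refine mul_le_mul_of_nonneg_right ?_ (hN _ _)
      rw [hW]
      gcongr) hc
  refine key.trans (mul_le_mul_of_nonneg_right ?_ (hN _ _))
  have hT : 1 ≤ K * M := one_le_mul_of_one_le_of_one_le hK hM
  have hM' : M ≤ K * M := le_mul_of_one_le_left (by linarith) hK
  have hK' : K ≤ K * M := le_mul_of_one_le_right (by linarith) hM
  have b1 : A ≤ (2 * (K * M)) ^ (2 : ℝ) := by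
    refine max_le ?_ ?_
    · rw [Real.rpow_two]
      nlinarith
    · calc (2 * M) ^ (1 + x) ≤ (2 * M) ^ (2 : ℝ) :=
            Real.rpow_le_rpow_of_exponent_le (by linarith) (by linarith)
        _ ≤ _ := by gcongr
  have b2 : 1 + Real.log A ≤ C₂ * (2 * (K * M)) ^ (ε / 2) := by
    have e := H₂ A hA1
    rw [Real.rpow_one] at e
    refine e.trans (mul_le_mul_of_nonneg_left ?_ hC₂.le)
    calc A ^ (ε / 4) ≤ ((2 * (K * M)) ^ (2 : ℝ)) ^ (ε / 4) := by gcongr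
      _ = _ := by
        rw [← Real.rpow_mul (by positivity)]
        congr 1
        ring
  have b3 : W ≤ 12 * (K + (K * M) ^ (2 / 3 : ℝ) + M ^ (4 / 3 + 2 / 3 * x)) := stc_num hK hM hx1
  have b4 : M ^ (ε / 4) ≤ (2 * (K * M)) ^ (ε / 4) := by gcongr; linarith
  have b5 : (2 * M) ^ (ε / 4) ≤ (2 * (K * M)) ^ (ε / 4) := by gcongr
  have b6 : (2 * (K * M)) ^ (ε / 4) * (2 * (K * M)) ^ (ε / 2) * (2 * (K * M)) ^ (ε / 4) =
      2 ^ ε * (K * M) ^ ε := by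
    rw [← Real.rpow_add (by positivity), ← Real.rpow_add (by positivity),
      ← Real.mul_rpow (by norm_num) (by positivity)]
    congr 1
    ring
  calc 4 * (C₃ * M ^ (ε / 4) * Δ) ≤ 4 * (C₃ * (2 * (K * M)) ^ (ε / 4) *
        (C₀ * (C₂ * (2 * (K * M)) ^ (ε / 2)) * (C₁ * (2 * (K * M)) ^ (ε / 4) *
          (12 * (K + (K * M) ^ (2 / 3 : ℝ) + M ^ (4 / 3 + 2 / 3 * x)))))) := by
        rw [hΔ]
        gcongr
    _ = 48 * C₀ * C₁ * C₂ * C₃ * ((2 * (K * M)) ^ (ε / 4) * (2 * (K * M)) ^ (ε / 2) *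
        (2 * (K * M)) ^ (ε / 4)) * (K + (K * M) ^ (2 / 3 : ℝ) + M ^ (4 / 3 + 2 / 3 * x)) := by ring
    _ = _ := by rw [b6]; ring

end Crest.Agent.R12.LS
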