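import Crest.Agent.R12.LS.All
import Crest.Agent.R12.LS.Step

/-! Row 12, block LS: `StPO → StLS`. -/

set_option autoImplicit false

namespace Crest.Agent.R12.LS

open Crest.Agent.R17
open scoped ComplexConjugate

theorem gx_pow (hPO : StPO) (n : ℕ) : GX ((2 / 3 : ℝ) ^ n) := by
  induction n with
  | zero => simpa using gx_one
  | succ n ih =>
    rw [pow_succ']
    exact (step hPO (by positivity) (pow_le_one₀ (by norm_num) (by norm_num))
      (ih.ax (by positivity))).gx (by positivity)

end Crest.Agent.R12.LS

namespace Crest.Agent.R12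

theorem stLS (hPO : StPO) : StLS := LS.stLS_of fun ε hε => by
  obtain ⟨n, hn⟩ := exists_pow_lt_of_lt_one hε (by norm_num : (2 / 3 : ℝ) < 1)
  exact ⟨_, by positivity, hn.le, LS.gx_pow hPO n⟩

end Crest.Agent.R12
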