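import Crest.Agent.R12.LS.Defs

/-! Row 12, block LS: the energy bound from `StPO`. -/

set_option autoImplicit false

namespace Crest.Agent.R12.LS

open Crest.Agent.R17
open scoped ComplexConjugate

theorem rpow_le_two {t θ α β : ℝ} (ht : 0 < t) (h1 : α ≤ θ) (h2 : θ ≤ β) : t ^ θ ≤ t ^ α + t ^ β := by
  have h3 : 0 ≤ t ^ α := Real.rpow_nonneg ht.le _
  have h4 : 0 ≤ t ^ β := Real.rpow_nonneg ht.le _
  rcases le_total t 1 with h | h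
  · have := Real.rpow_le_rpow_of_exponent_ge ht h h1
    linarith
  · have := Real.rpow_le_rpow_of_exponent_le h h2
    linarith

/-- `RS_le` for a general strip `|Re z| ≤ r` -/
theorem lsra_RS {B U Δ : ℝ} (hB : 0 < B) {γ : O → ℂ} (hγ : Supp γ B (2 * B)) {l : O} (hl : PSq l)
    (hΔ : 0 ≤ Δ) (h : AB U (2 * B / nm l) Δ) (h' : O) {z : ℂ} {r : ℕ} (hz : |z.re| ≤ r)
    {S : Finset O} (hS : ∀ k ∈ S, k ≠ 0 ∧ nm k ≤ U) :
    ∑ k ∈ S, ‖RS γ (2 * B) B l h' k z‖ ^ 2 ≤ Δ * (4 ^ r * Gl γ (2 * B) l) := by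
  have hl0 : 0 < nm l := nm_pos hl.ne_zero
  have hl1 : 1 ≤ nm l := one_le_nm hl.ne_zero
  set c : O → ℂ := fun n => γ (l * n) * cb h' n * ((nm (l * n) / B : ℝ) : ℂ) ^ z with hc
  have hne : ∀ n, c n ≠ 0 → γ (l * n) ≠ 0 := by
    intro n hn h0
    exact hn (by simp only [hc, h0, zero_mul])
  have hsup : Supp c 0 (2 * B / nm l) := by
    intro n hn
    obtain ⟨h1, -, h3⟩ := hγ _ (hne n hn)
    have h4 : PSq n := PSq.of_mul_left hl.1 h1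
    refine ⟨h4, nm_pos h4.ne_zero, ?_⟩
    rw [le_div_iff₀ hl0, mul_comm, ← nm_mul]
    exact h3
  have hsub : ball (2 * B / nm l) ⊆ ball (2 * B) := by
    intro n hn
    rw [mem_ball] at hn ⊢
    exact hn.trans (div_le_self (by linarith) hl1)
  have hRS : ∀ k, RS γ (2 * B) B l h' k z = cs c (2 * B / nm l) k := by
    intro k
    unfold RS cs
    rw [← Finset.sum_subset hsub]
    · refine Finset.sum_congr rfl fun n _ => ?_
      simp only [hc, cb_mul_left]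
      ring
    · intro n _ hn
      have h0 : γ (l * n) = 0 := by
        by_contra h0
        apply hn
        rw [mem_ball, le_div_iff₀ hl0, mul_comm, ← nm_mul]
        exact (hγ _ h0).2.2
      rw [h0, zero_mul, zero_mul]
  have hpt : ∀ n, ‖c n‖ ^ 2 ≤ 4 ^ r * ‖γ (l * n)‖ ^ 2 := by
    intro n
    by_cases h0 : γ (l * n) = 0
    · simp [hc, h0]
    obtain ⟨-, h2, h3⟩ := hγ _ h0
    have e1 : 1 ≤ nm (l * n) / B := by
      rw [le_div_iff₀ hB]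
      linarith
    have e2 : nm (l * n) / B ≤ 2 := by
      rw [div_le_iff₀ hB]
      linarith
    have e3 : ‖((nm (l * n) / B : ℝ) : ℂ) ^ z‖ ≤ 2 ^ r := by
      rw [Complex.norm_cpow_eq_rpow_re_of_pos (by linarith)]
      calc (nm (l * n) / B) ^ z.re ≤ (nm (l * n) / B) ^ (r : ℝ) :=
            Real.rpow_le_rpow_of_exponent_le e1 ((le_abs_self _).trans hz)
        _ = (nm (l * n) / B) ^ r := Real.rpow_natCast _ _
        _ ≤ 2 ^ r := pow_le_pow_left₀ (by linarith) e2 r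
    have e4 : ‖c n‖ ≤ ‖γ (l * n)‖ * 2 ^ r := by
      simp only [hc, norm_mul]
      have := norm_cb_le h' n
      calc ‖γ (l * n)‖ * ‖cb h' n‖ * ‖((nm (l * n) / B : ℝ) : ℂ) ^ z‖
          ≤ ‖γ (l * n)‖ * 1 * 2 ^ r := by gcongr
        _ = ‖γ (l * n)‖ * 2 ^ r := by ring
    calc ‖c n‖ ^ 2 ≤ (‖γ (l * n)‖ * 2 ^ r) ^ 2 := by gcongr
      _ = 4 ^ r * ‖γ (l * n)‖ ^ 2 := by
          rw [mul_pow, ← pow_mul, mul_comm r 2, pow_mul]
          norm_num [mul_comm]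
  have hN : N2 c (2 * B / nm l) ≤ 4 ^ r * Gl γ (2 * B) l := by
    unfold N2 Gl
    rw [Finset.mul_sum]
    calc ∑ n ∈ ball (2 * B / nm l), ‖c n‖ ^ 2 ≤ ∑ n ∈ ball (2 * B), ‖c n‖ ^ 2 :=
          Finset.sum_le_sum_of_subset_of_nonneg hsub fun _ _ _ => by positivity
      _ ≤ _ := Finset.sum_le_sum fun n _ => hpt n
  simp only [hRS]
  exact (h S c hS hsup).trans (mul_le_mul_of_nonneg_left hN hΔ)

/-- the coefficients `n ↦ γ (l n) cb h n (N(l n)/B)^z` are supported on `N n ≤ 2 B / N l`, with square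
norm at most `64 Gl` -/
theorem RS_le {B U Δ : ℝ} (hB : 0 < B) {γ : O → ℂ} (hγ : Supp γ B (2 * B)) {l : O} (hl : PSq l)
    (hΔ : 0 ≤ Δ) (h : AB U (2 * B / nm l) Δ) (h' : O) {z : ℂ} (hz : |z.re| ≤ 3) {S : Finset O}
    (hS : ∀ k ∈ S, k ≠ 0 ∧ nm k ≤ U) :
    ∑ k ∈ S, ‖RS γ (2 * B) B l h' k z‖ ^ 2 ≤ Δ * (64 * Gl γ (2 * B) l) := by
  have := lsra_RS hB hγ hl hΔ h h' (r := 3) (by exact_mod_cast hz) hS
  norm_num at this ⊢
  exact this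

/-- the numerical step of `rowBd` -/
theorem lsra_num {x ε K t M N : ℝ} (hx : 0 ≤ x) (hε : 0 < ε) (hε' : ε ≤ 1 / 6) (hK : 0 < K)
    (ht : 0 < t) (hM : 1 ≤ M) (hMN : M ≤ N) (hKN : K ≤ N ^ 2) :
    (K * t * M) ^ ε * ((K * t) ^ (1 / 3 : ℝ) * M + K * t + (K * t * M) ^ (2 / 3 : ℝ) +
        (K * t) ^ (4 / 3 : ℝ) * M ^ x) ≤
      N ^ (3 * ε) * (K ^ (1 / 3 : ℝ) * M * t ^ (1 / 3 : ℝ) +
        (K ^ (1 / 3 : ℝ) * N + K + (K * N) ^ (2 / 3 : ℝ) + K ^ (4 / 3 : ℝ) * N ^ x) *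
          (t ^ (1 / 2 : ℝ) + t ^ (5 / 2 : ℝ))) := by
  have hM0 : 0 < M := by linarith
  have hN0 : 0 < N := by linarith
  have e0 : (K * t * M) ^ ε ≤ N ^ (3 * ε) * t ^ ε := by
    have a1 : K * t * M ≤ N ^ (3 : ℝ) * t := by
      have : K * M ≤ N ^ 2 * N := mul_le_mul hKN hMN hM0.le (by positivity)
      rw [show (3 : ℝ) = ((3 : ℕ) : ℝ) by norm_num, Real.rpow_natCast]
      nlinarith
    calc (K * t * M) ^ ε ≤ (N ^ (3 : ℝ) * t) ^ ε := Real.rpow_le_rpow (by positivity) a1 hε.le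
      _ = N ^ (3 * ε) * t ^ ε := by
          rw [Real.mul_rpow (by positivity) ht.le, ← Real.rpow_mul hN0.le]
  have h2 : 0 ≤ t ^ (1 / 2 : ℝ) := by positivity
  have h5 : 0 ≤ t ^ (5 / 2 : ℝ) := by positivity
  have p1 : t ^ ε * t ^ (1 / 3 : ℝ) ≤ t ^ (1 / 3 : ℝ) + t ^ (1 / 2 : ℝ) := by
    rw [← Real.rpow_add ht]
    exact rpow_le_two ht (by linarith) (by linarith)
  have p2 : t ^ ε * t ≤ t ^ (1 / 2 : ℝ) + t ^ (5 / 2 : ℝ) := by
    rw [← Real.rpow_add_one ht.ne']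
    exact rpow_le_two ht (by linarith) (by linarith)
  have p3 : t ^ ε * t ^ (2 / 3 : ℝ) ≤ t ^ (1 / 2 : ℝ) + t ^ (5 / 2 : ℝ) := by
    rw [← Real.rpow_add ht]
    exact rpow_le_two ht (by linarith) (by linarith)
  have p4 : t ^ ε * t ^ (4 / 3 : ℝ) ≤ t ^ (1 / 2 : ℝ) + t ^ (5 / 2 : ℝ) := by
    rw [← Real.rpow_add ht]
    exact rpow_le_two ht (by linarith) (by linarith)
  have k3 : 0 ≤ K ^ (1 / 3 : ℝ) := by positivity
  have q1 : t ^ ε * ((K * t) ^ (1 / 3 : ℝ) * M) ≤ K ^ (1 / 3 : ℝ) * M * t ^ (1 / 3 : ℝ) +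
      K ^ (1 / 3 : ℝ) * N * (t ^ (1 / 2 : ℝ) + t ^ (5 / 2 : ℝ)) := by
    rw [Real.mul_rpow hK.le ht.le]
    calc t ^ ε * (K ^ (1 / 3 : ℝ) * t ^ (1 / 3 : ℝ) * M)
        = K ^ (1 / 3 : ℝ) * M * (t ^ ε * t ^ (1 / 3 : ℝ)) := by ring
      _ ≤ K ^ (1 / 3 : ℝ) * M * (t ^ (1 / 3 : ℝ) + t ^ (1 / 2 : ℝ)) := by gcongr
      _ = K ^ (1 / 3 : ℝ) * M * t ^ (1 / 3 : ℝ) + K ^ (1 / 3 : ℝ) * M * t ^ (1 / 2 : ℝ) := by ring
      _ ≤ _ := by
          gcongr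
          linarith
  have q2 : t ^ ε * (K * t) ≤ K * (t ^ (1 / 2 : ℝ) + t ^ (5 / 2 : ℝ)) := by
    calc t ^ ε * (K * t) = K * (t ^ ε * t) := by ring
      _ ≤ _ := by gcongr
  have q3 : t ^ ε * (K * t * M) ^ (2 / 3 : ℝ) ≤
      (K * N) ^ (2 / 3 : ℝ) * (t ^ (1 / 2 : ℝ) + t ^ (5 / 2 : ℝ)) := by
    rw [mul_right_comm K t M, Real.mul_rpow (by positivity) ht.le]
    calc t ^ ε * ((K * M) ^ (2 / 3 : ℝ) * t ^ (2 / 3 : ℝ))
        = (K * M) ^ (2 / 3 : ℝ) * (t ^ ε * t ^ (2 / 3 : ℝ)) := by ring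
      _ ≤ _ := by gcongr
  have q4 : t ^ ε * ((K * t) ^ (4 / 3 : ℝ) * M ^ x) ≤
      K ^ (4 / 3 : ℝ) * N ^ x * (t ^ (1 / 2 : ℝ) + t ^ (5 / 2 : ℝ)) := by
    rw [Real.mul_rpow hK.le ht.le]
    calc t ^ ε * (K ^ (4 / 3 : ℝ) * t ^ (4 / 3 : ℝ) * M ^ x)
        = K ^ (4 / 3 : ℝ) * M ^ x * (t ^ ε * t ^ (4 / 3 : ℝ)) := by ring
      _ ≤ _ := by gcongr
  calc (K * t * M) ^ ε * ((K * t) ^ (1 / 3 : ℝ) * M + K * t + (K * t * M) ^ (2 / 3 : ℝ) +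
        (K * t) ^ (4 / 3 : ℝ) * M ^ x)
      ≤ N ^ (3 * ε) * t ^ ε * ((K * t) ^ (1 / 3 : ℝ) * M + K * t + (K * t * M) ^ (2 / 3 : ℝ) +
        (K * t) ^ (4 / 3 : ℝ) * M ^ x) := by gcongr
    _ = N ^ (3 * ε) * (t ^ ε * ((K * t) ^ (1 / 3 : ℝ) * M) + t ^ ε * (K * t) +
        t ^ ε * (K * t * M) ^ (2 / 3 : ℝ) + t ^ ε * ((K * t) ^ (4 / 3 : ℝ) * M ^ x)) := by ring
    _ ≤ N ^ (3 * ε) * ((K ^ (1 / 3 : ℝ) * M * t ^ (1 / 3 : ℝ) +
        K ^ (1 / 3 : ℝ) * N * (t ^ (1 / 2 : ℝ) + t ^ (5 / 2 : ℝ))) +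
        K * (t ^ (1 / 2 : ℝ) + t ^ (5 / 2 : ℝ)) +
        (K * N) ^ (2 / 3 : ℝ) * (t ^ (1 / 2 : ℝ) + t ^ (5 / 2 : ℝ)) +
        K ^ (4 / 3 : ℝ) * N ^ x * (t ^ (1 / 2 : ℝ) + t ^ (5 / 2 : ℝ))) := by gcongr
    _ = _ := by ring

/-- `U = K t`; `K^ε ≤ (2B)^{2ε}`; `rpow_le_two` for the exponents `1/3+ε, 1+ε, 2/3+ε, 4/3+ε` -/
theorem rowBd {x : ℝ} (hx : 0 ≤ x) (h : AX x) {ε : ℝ} (hε : 0 < ε) (hε' : ε ≤ 1 / 6) :
    ∃ C : ℝ, 0 < C ∧ ∀ (B K : ℝ) (γ : O → ℂ), 1 / 2 ≤ B → 0 < K → K ≤ B ^ 2 → Supp γ B (2 * B) →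
      RowBd (fun _ => True) γ (2 * B) B K 0
        (fun l => C * (2 * B) ^ (3 * ε) * (K ^ (1 / 3 : ℝ) * (2 * B / nm l)) * Gl γ (2 * B) l)
        (fun l => C * (2 * B) ^ (3 * ε) * (K ^ (1 / 3 : ℝ) * (2 * B) + K + (K * (2 * B)) ^ (2 / 3 : ℝ) +
          K ^ (4 / 3 : ℝ) * (2 * B) ^ x) * Gl γ (2 * B) l) := by
  obtain ⟨C, hC, hA⟩ := h ε hε
  refine ⟨64 * C, by positivity, fun B K γ hB hK hKB hγ => ?_⟩
  intro l h' U z S hl hlB _ _ hU hz hS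
  have hB0 : 0 < B := by linarith
  have hl0 : 0 < nm l := nm_pos hl.ne_zero
  have hl1 : 1 ≤ nm l := one_le_nm hl.ne_zero
  have hM : 1 ≤ 2 * B / nm l := by
    rw [le_div_iff₀ hl0]
    linarith
  have hMN : 2 * B / nm l ≤ 2 * B := div_le_self (by linarith) hl1
  have hU0 : 0 < U := by linarith
  have hG : 0 ≤ Gl γ (2 * B) l := Finset.sum_nonneg fun _ _ => by positivity
  have h1 := lsra_RS hB0 hγ hl (by positivity) (hA U _ hU hM) h' (r := 3) (by exact_mod_cast hz)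
    (S := S) fun k hk => ⟨(hS k hk).1, (hS k hk).2.1⟩
  have h2 := lsra_num (t := U / K) (N := 2 * B) hx hε hε' hK (by positivity) hM hMN (by nlinarith)
  rw [show K * (U / K) = U by field_simp] at h2
  refine h1.trans ?_
  have h3 := mul_le_mul_of_nonneg_left h2 (show 0 ≤ 64 * C * Gl γ (2 * B) l by positivity)
  calc _ = 64 * C * Gl γ (2 * B) l * ((U * (2 * B / nm l)) ^ ε *
        (U ^ (1 / 3 : ℝ) * (2 * B / nm l) + U + (U * (2 * B / nm l)) ^ (2 / 3 : ℝ) +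
          U ^ (4 / 3 : ℝ) * (2 * B / nm l) ^ x)) := by ring
    _ ≤ _ := h3
    _ = _ := by ring

/-- `sum_label`, `dn_le_of_dvd`, `dn_pow_le` -/
theorem sum_Gl {ε : ℝ} (hε : 0 < ε) : ∃ C : ℝ, 0 < C ∧ ∀ (B X : ℝ) (γ : O → ℂ), 1 ≤ X → Supp γ B X →
    ∑ l ∈ sball X, dn l ^ 2 * Gl γ X l ≤ C * X ^ ε * N2 γ X := by
  obtain ⟨C, hC, h⟩ := dn_pow_le 3 hε
  refine ⟨C, hC, fun B X γ hX hγ => ?_⟩
  unfold Gl N2
  rw [sum_label hγ fun l => dn l ^ 2, Finset.mul_sum]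
  refine Finset.sum_le_sum fun b _ => ?_
  by_cases hb : γ b = 0
  · simp [hb]
  obtain ⟨h1, -, h3⟩ := hγ b hb
  have hb0 : b ≠ 0 := h1.1.ne_zero
  rw [mul_comm]
  refine mul_le_mul_of_nonneg_right ?_ (by positivity)
  calc ∑ l ∈ pdiv b, dn l ^ 2 ≤ ∑ l ∈ pdiv b, dn b ^ 2 :=
        Finset.sum_le_sum fun l hl =>
          pow_le_pow_left₀ (dn_nonneg l) (dn_le_of_dvd hb0 ((mem_pdiv hb0).1 hl).2) 2
    _ = dn b ^ 3 := by
        rw [Finset.sum_const, nsmul_eq_mul]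
        change dn b * dn b ^ 2 = _
        ring
    _ ≤ C * nm b ^ ε := h b hb0
    _ ≤ C * X ^ ε := by
        gcongr
        exact nm_nonneg b

/-- with `N = 2 B`, `K = B² / A`, `N^{1+x} ≤ A`:
`(A/B) (K^{1/3} N + K + (K N)^{2/3} + K^{4/3} N^x) ≤ C (A + (A N)^{2/3} + N^{4/3+2x/3})` -/
theorem num_OD {A B x : ℝ} (hB : 1 / 2 ≤ B) (hx : 0 ≤ x) (hA : (2 * B) ^ (1 + x) ≤ A) :
    A / B * ((B ^ 2 / A) ^ (1 / 3 : ℝ) * (2 * B) + B ^ 2 / A + (B ^ 2 / A * (2 * B)) ^ (2 / 3 : ℝ) +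
        (B ^ 2 / A) ^ (4 / 3 : ℝ) * (2 * B) ^ x) ≤
      4 * (A + (A * (2 * B)) ^ (2 / 3 : ℝ) + (2 * B) ^ (4 / 3 + 2 / 3 * x)) := by
  have hB0 : 0 < B := by linarith
  have hN : 1 ≤ 2 * B := by linarith
  have hA1 : 1 ≤ A := (Real.one_le_rpow hN (by linarith)).trans hA
  have hA0 : 0 < A := by linarith
  have l2 : 0 ≤ Real.log 2 := Real.log_nonneg one_le_two
  have lN : 0 ≤ Real.log 2 + Real.log B := by
    rw [← Real.log_mul two_ne_zero hB0.ne']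
    exact Real.log_nonneg hN
  have lA : (1 + x) * (Real.log 2 + Real.log B) ≤ Real.log A := by
    rw [← Real.log_mul two_ne_zero hB0.ne', ← Real.log_rpow (by positivity)]
    exact Real.log_le_log (by positivity) hA
  have lx := mul_nonneg hx lN
  have t1 : A / B * ((B ^ 2 / A) ^ (1 / 3 : ℝ) * (2 * B)) ≤ 2 * (A * (2 * B)) ^ (2 / 3 : ℝ) := by
    rw [← Real.log_le_log_iff (by positivity) (by positivity)]
    simp (disch := positivity) only [Real.log_mul, Real.log_div, Real.log_rpow, Real.log_pow]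
    push_cast
    linarith
  have t2 : A / B * (B ^ 2 / A) ≤ A := by
    rw [← Real.log_le_log_iff (by positivity) (by positivity)]
    simp (disch := positivity) only [Real.log_mul, Real.log_div, Real.log_rpow, Real.log_pow]
    push_cast
    linarith
  have t3 : A / B * (B ^ 2 / A * (2 * B)) ^ (2 / 3 : ℝ) ≤ (A * (2 * B)) ^ (2 / 3 : ℝ) := by
    rw [← Real.log_le_log_iff (by positivity) (by positivity)]
    simp (disch := positivity) only [Real.log_mul, Real.log_div, Real.log_rpow, Real.log_pow]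
    push_cast
    linarith
  have t4 : A / B * ((B ^ 2 / A) ^ (4 / 3 : ℝ) * (2 * B) ^ x) ≤ (2 * B) ^ (4 / 3 + 2 / 3 * x) := by
    rw [← Real.log_le_log_iff (by positivity) (by positivity)]
    simp (disch := positivity) only [Real.log_mul, Real.log_div, Real.log_rpow, Real.log_pow]
    push_cast
    linarith
  have p1 : 0 ≤ (A * (2 * B)) ^ (2 / 3 : ℝ) := by positivity
  have p2 : 0 ≤ (2 * B) ^ (4 / 3 + 2 / 3 * x) := by positivity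
  rw [mul_add, mul_add, mul_add]
  linarith

/-- `StPO` with `ν = 0`, `a = 1` -/
theorem EN_le (hPO : StPO) {x : ℝ} (hx : 0 ≤ x) (h : AX x) {ε : ℝ} (hε : 0 < ε) :
    ∃ C : ℝ, 0 < C ∧ ∀ (A B : ℝ) (γ : O → ℂ), 1 / 2 ≤ B → (2 * B) ^ (1 + x) ≤ A → Supp γ B (2 * B) →
      EN 1 A γ (2 * B) ≤ C * (2 * B) ^ ε *
        (A + (A * (2 * B)) ^ (2 / 3 : ℝ) + (2 * B) ^ (4 / 3 + 2 / 3 * x)) * N2 γ (2 * B) := by
  obtain ⟨C₀, hC₀⟩ := hPO 0
  have he0 : 0 < min (ε / 4) (1 / 6) := lt_min (by positivity) (by norm_num)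
  obtain ⟨C₁, hC₁, hR⟩ := rowBd hx h he0 (min_le_right _ _)
  have he1 : min (ε / 4) (1 / 6) ≤ ε / 4 := min_le_left _ _
  generalize min (ε / 4) (1 / 6) = e at he0 hR he1
  obtain ⟨C₂, hC₂, hG⟩ := sum_Gl (ε := ε / 4) (by positivity)
  refine ⟨max C₀ 1 * (2 + 8 * C₁ * C₂), by positivity, fun A B γ hB hA hγ => ?_⟩
  have hB0 : 0 < B := by linarith
  have hN : 1 ≤ 2 * B := by linarith
  have hA1 : 1 ≤ A := (Real.one_le_rpow hN (by linarith)).trans hA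
  have hA0 : 0 < A := by linarith
  have hK : 0 < B ^ 2 / A := by positivity
  have hGl : ∀ l, 0 ≤ Gl γ (2 * B) l := fun l => Finset.sum_nonneg fun _ _ => by positivity
  have hN2 : 0 ≤ N2 γ (2 * B) := Finset.sum_nonneg fun _ _ => by positivity
  have hrow := hR B (B ^ 2 / A) γ hB hK (div_le_self (by positivity) hA1) hγ
  have hnum := num_OD hB hx hA
  have hsum := hG B (2 * B) γ hN hγ
  have h1 : B ^ 2 / A = B ^ 2 / (1 ^ 2 * A) := by simp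
  have hE := hC₀ 1 A B (2 * B) γ _ _ one_pos le_rfl hA1 hB0 hγ
    (fun l => by have := nm_nonneg l; have := hGl l; positivity)
    (fun l => by have := hGl l; positivity) (h1 ▸ hrow)
  rw [← h1] at hE
  have hT : (B ^ 2 / A) ^ (1 / 3 : ℝ) * (2 * B) ≤ (B ^ 2 / A) ^ (1 / 3 : ℝ) * (2 * B) + B ^ 2 / A +
      (B ^ 2 / A * (2 * B)) ^ (2 / 3 : ℝ) + (B ^ 2 / A) ^ (4 / 3 : ℝ) * (2 * B) ^ x := by
    have : 0 ≤ (B ^ 2 / A * (2 * B)) ^ (2 / 3 : ℝ) := by positivity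
    have : 0 ≤ (B ^ 2 / A) ^ (4 / 3 : ℝ) * (2 * B) ^ x := by positivity
    linarith
  have hk3 : 0 ≤ (B ^ 2 / A) ^ (1 / 3 : ℝ) := by positivity
  generalize (B ^ 2 / A) ^ (1 / 3 : ℝ) * (2 * B) + B ^ 2 / A +
      (B ^ 2 / A * (2 * B)) ^ (2 / 3 : ℝ) + (B ^ 2 / A) ^ (4 / 3 : ℝ) * (2 * B) ^ x = T at hE hT hnum
  generalize (B ^ 2 / A) ^ (1 / 3 : ℝ) = k at hE hT hk3
  have hT0 : 0 ≤ T := le_trans (by positivity) hT
  have hM : A ≤ A + (A * (2 * B)) ^ (2 / 3 : ℝ) + (2 * B) ^ (4 / 3 + 2 / 3 * x) := by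
    have p1 : 0 ≤ (A * (2 * B)) ^ (2 / 3 : ℝ) := by positivity
    have p2 : 0 ≤ (2 * B) ^ (4 / 3 + 2 / 3 * x) := by positivity
    linarith
  generalize A + (A * (2 * B)) ^ (2 / 3 : ℝ) + (2 * B) ^ (4 / 3 + 2 / 3 * x) = M at hM hnum ⊢
  have hM0 : 0 ≤ M := hA0.le.trans hM
  have hP : (2 * B) ^ (3 * e) * (2 * B) ^ (ε / 4) ≤ (2 * B) ^ ε := by
    rw [← Real.rpow_add (by positivity)]
    exact Real.rpow_le_rpow_of_exponent_le hN (by linarith)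
  have hP1 : 1 ≤ (2 * B) ^ ε := Real.one_le_rpow hN hε.le
  have hp3 : 0 ≤ (2 * B) ^ (3 * e) := by positivity
  have hp4 : 0 ≤ (2 * B) ^ (ε / 4) := by positivity
  generalize (2 * B) ^ (3 * e) = p at hE hP hp3
  generalize (2 * B) ^ (ε / 4) = q at hsum hP hp4
  generalize (2 * B) ^ ε = P at hP hP1 ⊢
  have hOD : OD 1 A B (2 * B) 0 (fun l => C₁ * p * (k * (2 * B / nm l)) * Gl γ (2 * B) l)
      (fun l => C₁ * p * T * Gl γ (2 * B) l) ≤ 8 * C₁ * C₂ * P * M * N2 γ (2 * B) := by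
    unfold OD
    rw [pow_zero, inv_one, one_mul, one_mul]
    have hs : ∑ l ∈ sball (2 * B), dn l ^ 2 * (nm l ^ (1 / 3 : ℝ) *
        (C₁ * p * (k * (2 * B / nm l)) * Gl γ (2 * B) l) + C₁ * p * T * Gl γ (2 * B) l) ≤
        2 * C₁ * p * T * ∑ l ∈ sball (2 * B), dn l ^ 2 * Gl γ (2 * B) l := by
      rw [Finset.mul_sum]
      refine Finset.sum_le_sum fun l hl => ?_
      have hl1 : 1 ≤ nm l := one_le_nm (mem_sball.1 hl).2.1.ne_zero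
      have hl2 : nm l ^ (1 / 3 : ℝ) * (2 * B / nm l) ≤ 2 * B := by
        have : nm l ^ (1 / 3 : ℝ) ≤ nm l := by
          simpa using Real.rpow_le_rpow_of_exponent_le hl1 (show (1 / 3 : ℝ) ≤ 1 by norm_num)
        calc _ ≤ nm l * (2 * B / nm l) := by gcongr
          _ = 2 * B := by field_simp
      have hl3 : k * (nm l ^ (1 / 3 : ℝ) * (2 * B / nm l)) ≤ T :=
        (mul_le_mul_of_nonneg_left hl2 hk3).trans hT
      have := hGl l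
      have hw : 0 ≤ dn l ^ 2 * (C₁ * p) * Gl γ (2 * B) l := by positivity
      have := mul_le_mul_of_nonneg_left hl3 hw
      linarith
    calc _ ≤ A / B * (2 * C₁ * p * T * (C₂ * q * N2 γ (2 * B))) := by
          gcongr
          exact hs.trans (by gcongr)
      _ = 2 * C₁ * C₂ * (p * q) * (A / B * T) * N2 γ (2 * B) := by ring
      _ ≤ 2 * C₁ * C₂ * P * (4 * M) * N2 γ (2 * B) := by gcongr
      _ = _ := by ring
  have hOD0 : 0 ≤ OD 1 A B (2 * B) 0 (fun l => C₁ * p * (k * (2 * B / nm l)) * Gl γ (2 * B) l)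
      (fun l => C₁ * p * T * Gl γ (2 * B) l) := by
    unfold OD
    refine mul_nonneg (by positivity) (Finset.sum_nonneg fun l _ => ?_)
    have := nm_nonneg l
    have := hGl l
    positivity
  have hsq : Real.sqrt A ≤ A := Real.sqrt_le_iff.2 ⟨hA0.le, by nlinarith⟩
  have hD : (1 * A + Real.sqrt A) * N2 γ (2 * B) ≤ 2 * P * M * N2 γ (2 * B) := by
    gcongr
    nlinarith
  refine hE.trans ((mul_le_mul_of_nonneg_right (le_max_left C₀ 1) (by positivity)).trans ?_)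
  calc _ ≤ max C₀ 1 * (2 * P * M * N2 γ (2 * B) + 8 * C₁ * C₂ * P * M * N2 γ (2 * B)) := by gcongr
    _ = _ := by ring

end Crest.Agent.R12.LS
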